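import Vale.Agent.P006.PS.Main
import Vale.Agent.P006.H357.Inst

/-!
P006, block LV-B: the Poisson inequality in the shape of `HB.PStar`, for the cubic symbol, with the
left side summed over ALL nonzero `n` of norm at most `M`.
-/

namespace Vale.Agent.P006.PS

open scoped BigOperators Real
open Vale.Agent.P006 Vale.Agent.P006.HB

/-- The Poisson inequality (P*), left side over all nonzero `n`. -/
theorem pstar_full : ∀ ε : ℝ, 0 < ε → ∀ A : ℕ, ∃ C : ℝ, 0 < C ∧ ∀ K M : ℝ, 1 ≤ K → 1 ≤ M →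
    ∀ c : O → ℂ, (∀ k, c k ≠ 0 → k ∈ SF K ∧ K / 2 < (N k : ℝ)) → ∀ Φ : O → ℝ → ℝ,
    (∀ e ∈ SF K, ∀ H : ℝ, 1 ≤ H → ∀ x : O → ℂ, (∀ k, x k ≠ 0 → Prim k ∧ Squarefree k) →
      (∀ k, ‖x k‖ ≤ ‖c (e * k)‖) →
      ∑ h ∈ Hn H, ‖∑ k ∈ SF K, x k * symC k h‖ ^ 2 ≤ Φ e H) → ∀ G : O → ℝ,
    (∀ e ∈ SF K, ∀ d ∈ D e, ∀ f ∈ D d, ∀ H : ℝ, 1 ≤ H →
      (M * N d / (K * N f)) * min 1 (((N f : ℝ) * K ^ 2 / ((N d : ℝ) ^ 2 * M * H)) ^ A) * Φ e H
        ≤ G e) →
    ∑ n ∈ Hn M, ‖∑ k ∈ SF K, c k * symC k n‖ ^ 2 ≤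
      C * (K * M) ^ ε * (M * ∑ k ∈ SF K, ‖c k‖ ^ 2 + ∑ e ∈ SF K, G e) := by
  intro ε hε A
  obtain ⟨C, hC, h⟩ := poisson_ineq (A := (A : ℝ)) hε (by positivity)
  refine ⟨C, hC, ?_⟩
  intro K M hK hM c hc Φ hΦ G hG
  classical
  have hK0 : 0 < K := by linarith
  have hM0 : 0 < M := by linarith
  set 𝒦 : Finset O := (SF K).filter (fun k => c k ≠ 0) with h𝒦
  have hΦ0 : ∀ e ∈ SF K, ∀ H : ℝ, 1 ≤ H → 0 ≤ Φ e H := by
    intro e he H hH
    have := hΦ e he H hH (fun _ => 0) (fun k hk => absurd rfl hk) (fun k => by simp)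
    simpa using this
  have hG0 : ∀ e ∈ SF K, 0 ≤ G e := by
    intro e he
    have he' := mem_SF.1 he
    have h1 : (1 : O) ∈ D e := (mem_D he'.2.1.ne_zero).2 ⟨prim_one, one_dvd _⟩
    have h2 : (1 : O) ∈ D 1 := (mem_D one_ne_zero).2 ⟨prim_one, dvd_rfl⟩
    refine le_trans ?_ (hG e he 1 h1 1 h2 1 le_rfl)
    have := hΦ0 e he 1 le_rfl
    positivity
  have key := h K M 𝒦 c (fun e => max (G e) 0) hK hM (Finset.filter_subset _ _)
    (fun k hk => by
      rw [h𝒦, Finset.mem_filter] at hk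
      linarith [(hc k hk.2).2]) (fun e => le_max_right _ _) ?_
  · have e1 : ∑ e ∈ SF K, max (G e) 0 = ∑ e ∈ SF K, G e :=
      Finset.sum_congr rfl fun e he => max_eq_left (hG0 e he)
    have e2 : ∀ n, ∑ k ∈ 𝒦, c k * V1.ch k n = ∑ k ∈ SF K, c k * symC k n := by
      intro n
      rw [h𝒦, Finset.sum_filter]
      refine Finset.sum_congr rfl fun k _ => ?_
      split_ifs with h0
      · rfl
      · push Not at h0
        rw [h0, zero_mul]
    have e3 : ∑ k ∈ 𝒦, ‖c k‖ ^ 2 = ∑ k ∈ SF K, ‖c k‖ ^ 2 := by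
      rw [h𝒦, Finset.sum_filter]
      refine Finset.sum_congr rfl fun k _ => ?_
      split_ifs with h0
      · rfl
      · push Not at h0
        rw [h0]; simp
    rw [e1, e3] at key
    simp only [e2] at key
    refine key.trans ?_
    have hs1 : 0 ≤ M * ∑ k ∈ SF K, ‖c k‖ ^ 2 + ∑ e ∈ SF K, G e :=
      add_nonneg (by positivity) (Finset.sum_nonneg hG0)
    gcongr
    exact le_mul_of_one_le_right hK0.le hM
  · intro e he δ hδ d hd j x hx
    have he' := mem_SF.1 he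
    have hδ' := (mem_D he'.2.1.ne_zero).1 hδ
    have hd' := (mem_D hδ'.1.ne_zero).1 hd
    refine le_trans ?_ (le_max_left _ _)
    have hH1 : (1 : ℝ) ≤ 2 ^ j := one_le_pow₀ (by norm_num)
    refine le_trans ?_ (hG e he δ hδ d hd (2 ^ j) hH1)
    set x' : O → ℂ := fun s => if e * s ∈ 𝒦 then x s else 0 with hx'
    have h1 := hΦ e he (2 ^ j) hH1 x' ?_ ?_
    · have e1 : ∀ h, ∑ s ∈ (SF K).filter (fun s => e * s ∈ 𝒦), x s * V1.ch s h =
          ∑ k ∈ SF K, x' k * symC k h := by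
        intro h
        rw [Finset.sum_filter]
        refine Finset.sum_congr rfl fun s _ => ?_
        simp only [hx']
        split_ifs
        · rfl
        · rw [zero_mul]
      simp only [e1]
      have pd : (0 : ℝ) < N d := by exact_mod_cast hd'.1.N_pos
      have pδ : (0 : ℝ) < N δ := by exact_mod_cast hδ'.1.N_pos
      have hr : (0 : ℝ) ≤ N d * K ^ 2 / (N δ ^ 2 * M * 2 ^ j) := by positivity
      have e2 : (min 1 ((N d : ℝ) * K ^ 2 / (N δ ^ 2 * M * 2 ^ j))) ^ (A : ℝ) ≤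
          min 1 (((N d : ℝ) * K ^ 2 / ((N δ : ℝ) ^ 2 * M * 2 ^ j)) ^ A) := by
        rw [Real.rpow_natCast]
        refine le_min (pow_le_one₀ (le_min zero_le_one hr) (min_le_left _ _)) ?_
        exact pow_le_pow_left₀ (le_min zero_le_one hr) (min_le_right _ _) A
      have e3 : 0 ≤ Φ e (2 ^ j) := hΦ0 e he _ hH1
      gcongr
    · intro k hk
      simp only [hx'] at hk
      split_ifs at hk with h0
      · rw [h𝒦, Finset.mem_filter] at h0
        have h2 := mem_SF.1 h0.1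
        exact ⟨he'.2.1.of_mul_left h2.2.1, h2.2.2.squarefree_of_dvd (dvd_mul_left _ _)⟩
      · exact absurd rfl hk
    · intro k
      simp only [hx']
      split_ifs with h0
      · exact hx k h0
      · rw [norm_zero]; exact norm_nonneg _

/-- `HB.PStar` holds for the cubic symbol. -/
theorem pstar_symC : PStar symC := by
  intro ε hε A
  obtain ⟨C, hC, h⟩ := pstar_full ε hε A
  refine ⟨C, hC, fun K M hK hM c hc Φ hΦ G hG => ?_⟩
  refine le_trans ?_ (h K M hK hM c hc Φ hΦ G hG)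
  exact Finset.sum_le_sum_of_subset_of_nonneg (SF_subset_Hn M) fun _ _ _ => sq_nonneg _

/-- **The cubic large sieve of Heath-Brown**, unconditionally. -/
theorem cubic_large_sieve_symC : ∀ ε : ℝ, 0 < ε → ∃ C : ℝ, 0 < C ∧ ∀ K M : ℝ, 1 ≤ K → 1 ≤ M →
    LS symC K M (C * (K * M) ^ ε * (K + M + (K * M) ^ (2 / 3 : ℝ))) :=
  cubic_large_sieve csym_symC pstar_symC

/-- full version (outer sum over all nonzero `h`) -/
theorem cubic_large_sieve_full_symC : ∀ ε : ℝ, 0 < ε → ∃ C : ℝ, 0 < C ∧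
    ∀ K H : ℝ, 1 ≤ K → 1 ≤ H →
      LSF symC K H (C * (K * H) ^ ε * (H + K * H ^ (1 / 3 : ℝ) + (K * H) ^ (2 / 3 : ℝ))) :=
  cubic_large_sieve_full csym_symC pstar_symC

end Vale.Agent.P006.PS
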