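import Vale.Agent.P006.PS.Pair
import Vale.Agent.P006.H357.Alg

/-!
P006, block LV-B: expansion of the Gaussian-weighted quadratic form, Möbius collapse.
-/

namespace Vale.Agent.P006.PS

open scoped BigOperators Real
open Vale.Agent.P006 Vale.Agent.P006.V1 Vale.Agent.P006.HB

open scoped ComplexConjugate

/-- Möbius collapse -/
theorem mob_collapse : ∀ g : O, Prim g → Squarefree g → ∀ Φ : O → ℂ,
    ∑ e ∈ D g, ∑ δ ∈ D e, mob (e / δ) * Φ δ = Φ g := by
  refine sf_induction ?_ ?_
  · intro Φ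
    rw [D_one, Finset.sum_singleton, D_one, Finset.sum_singleton]
    rw [EuclideanDomain.div_self one_ne_zero, mob_one, one_mul]
  · intro p k hp hpp hk hsk hc ih Φ
    rw [sum_D_mul hp hpp hk hc]
    have h1 : ∀ e ∈ D k, ∑ δ ∈ D (p * e), mob (p * e / δ) * Φ δ =
        -(∑ δ ∈ D e, mob (e / δ) * Φ δ) + ∑ δ ∈ D e, mob (e / δ) * Φ (p * δ) := by
      intro e he
      rw [mem_D hk.ne_zero] at he
      have hce : IsCoprime p e := hc.of_isCoprime_of_dvd_right he.2
      rw [sum_D_mul hp hpp he.1 hce, ← Finset.sum_neg_distrib]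
      congr 1
      · refine Finset.sum_congr rfl fun δ hδ => ?_
        rw [mem_D he.1.ne_zero] at hδ
        obtain ⟨hδp, t, rfl⟩ := hδ
        have ht : t ≠ 0 := by rintro rfl; exact he.1.ne_zero (mul_zero _)
        rw [mul_left_comm, mul_div_cancel_left₀ _ hδp.ne_zero,
          mul_div_cancel_left₀ _ hδp.ne_zero, mob_mul hpp ht]
        ring
      · refine Finset.sum_congr rfl fun δ hδ => ?_
        rw [mem_D he.1.ne_zero] at hδ
        obtain ⟨hδp, t, rfl⟩ := hδ
        rw [← mul_assoc, mul_div_cancel_left₀ _ (mul_ne_zero hp.ne_zero hδp.ne_zero),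
          mul_div_cancel_left₀ _ hδp.ne_zero]
    rw [Finset.sum_congr rfl h1, Finset.sum_add_distrib, Finset.sum_neg_distrib]
    rw [add_neg_cancel_left]
    exact ih fun δ => Φ (p * δ)

/-- one term of the dual sum -/
noncomputable def dterm (A : ℝ) (a b h : O) : ℂ :=
  (ch a h * conj (ch b h)) * ((Real.exp (-(b0 * A * N h / (N a * N b))) : ℝ) : ℂ)

/-- the dual sum over `h ≠ 0` -/
noncomputable def dsum (A : ℝ) (a b : O) : ℂ := ∑' h : O, if h = 0 then 0 else dterm A a b h

theorem summable_dterm {A : ℝ} (hA : 0 < A) {a b : O} (ha : a ≠ 0) (hb : b ≠ 0) :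
    Summable (dterm A a b) := by
  have pa : (0 : ℝ) < N a := by exact_mod_cast N_pos ha
  have pb : (0 : ℝ) < N b := by exact_mod_cast N_pos hb
  have hA' : 0 < (N a * N b : ℝ) / A := by positivity
  refine (summable_pair hA' (ψ := fun h => ch a h * conj (ch b h)) fun h => ?_).congr fun h => ?_
  · rw [norm_mul, Complex.norm_conj]
    exact mul_le_one₀ (norm_sym_le _ _) (norm_nonneg _) (norm_sym_le _ _)
  · rw [dterm]
    congr 4
    field_simp

/-- the value of the twisted Gaussian sum -/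
noncomputable def psum (A : ℝ) (a b : O) : ℂ :=
  ∑' x : O, (conj (ch a x) * ch b x) * ((Real.exp (-(b0 * N x / A)) : ℝ) : ℂ)

theorem psum_split {a b : O} (ha : Primary a) (hb : Primary b) (sa : Squarefree a)
    (sb : Squarefree b) (hab : IsCoprime a b) {A : ℝ} (hA : 0 < A) :
    psum A a b = ((A / (Real.sqrt (N a) * Real.sqrt (N b)) : ℝ) : ℂ) *
      ((gam a * conj (gam b)) * (ch a 0 * conj (ch b 0) + dsum A a b)) := by
  have h := (pair_identity ha hb sa sb hab hA).tsum_eq
  rw [psum, ← h, tsum_mul_left, tsum_mul_left]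
  congr 2
  have h2 := (summable_dterm hA ha.ne_zero hb.ne_zero).tsum_eq_add_tsum_ite 0
  have h3 : dterm A a b 0 = ch a 0 * conj (ch b 0) := by simp [dterm]
  rw [h3] at h2
  exact h2

theorem cop_eq_sum {δ : O} (h1 : Prim δ) (h2 : Squarefree δ) (x : O) :
    cop δ x = ∑ d ∈ D δ, if d ∣ x then mob d else 0 := by
  classical
  have h := sum_mob δ h1 h2 x
  have h3 : ∑ d ∈ D δ, (if d ∣ x then mob d else 0) = if IsCoprime δ x then 1 else 0 := by
    rw [← h]
    refine Finset.sum_congr rfl fun d _ => ?_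
    congr 1
  rw [h3, cop]
  simp only [isCoprime_comm]

theorem norm_pair_le (a b x : O) : ‖conj (ch a x) * ch b x‖ ≤ 1 := by
  rw [norm_mul, Complex.norm_conj]
  exact mul_le_one₀ (norm_sym_le _ _) (norm_nonneg _) (norm_sym_le _ _)

theorem tsum_dvd {A : ℝ} (hA : 0 < A) {d a b : O} (hd : d ≠ 0) :
    (∑' n : O, (if d ∣ n then mob d else 0) * ((conj (ch a n) * ch b n) *
      ((Real.exp (-(b0 * N n / A)) : ℝ) : ℂ))) =
      mob d * (conj (ch a d) * ch b d) * psum (A / N d) a b := by
  have hinj : Function.Injective fun x : O => d * x := mul_right_injective₀ hd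
  have hpd : (0 : ℝ) < N d := by exact_mod_cast N_pos hd
  rw [← hinj.tsum_eq (f := fun n => (if d ∣ n then mob d else 0) * ((conj (ch a n) * ch b n) *
      ((Real.exp (-(b0 * N n / A)) : ℝ) : ℂ)))]
  · rw [psum, ← tsum_mul_left]
    refine tsum_congr fun x => ?_
    rw [if_pos (dvd_mul_right d x), ch_mul, ch_mul, map_mul, N_mul]
    have : -(b0 * ((N d * N x : ℕ) : ℝ) / A) = -(b0 * (N x : ℝ) / (A / N d)) := by
      push_cast
      field_simp
    rw [this]
    ring
  · intro n hn
    rw [Function.mem_support] at hn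
    by_contra hne
    apply hn
    rw [if_neg, zero_mul]
    rintro ⟨x, rfl⟩
    exact hne ⟨x, rfl⟩

theorem psum_mul {A : ℝ} (hA : 0 < A) {δ a b : O} (hδ : Prim δ) (sδ : Squarefree δ)
    (ha : a ≠ 0) (hb : b ≠ 0) :
    psum A (δ * a) (δ * b) =
      ∑ d ∈ D δ, mob d * (conj (ch a d) * ch b d) * psum (A / N d) a b := by
  have h1 : ∀ n : O, (conj (ch (δ * a) n) * ch (δ * b) n) *
      ((Real.exp (-(b0 * N n / A)) : ℝ) : ℂ) =
      ∑ d ∈ D δ, (if d ∣ n then mob d else 0) * ((conj (ch a n) * ch b n) *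
      ((Real.exp (-(b0 * N n / A)) : ℝ) : ℂ)) := by
    intro n
    rw [← Finset.sum_mul, ← cop_eq_sum hδ sδ, ch_mul_left hδ.ne_zero ha,
      ch_mul_left hδ.ne_zero hb, map_mul, ← ch_conj_mul δ n]
    ring
  rw [psum, tsum_congr h1, Summable.tsum_finsetSum]
  · refine Finset.sum_congr rfl fun d hd => ?_
    rw [mem_D hδ.ne_zero] at hd
    exact tsum_dvd hA hd.1.ne_zero
  · intro d _
    have h2 : ∀ n : O, (if d ∣ n then mob d else 0) * ((conj (ch a n) * ch b n) *
      ((Real.exp (-(b0 * N n / A)) : ℝ) : ℂ)) = ((if d ∣ n then mob d else 0) *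
        (conj (ch a n) * ch b n)) * ((Real.exp (-(b0 * N n / A)) : ℝ) : ℂ) := fun n => by ring
    simp only [h2]
    refine summable_pair hA fun n => ?_
    rw [norm_mul]
    refine mul_le_one₀ ?_ (norm_nonneg _) (norm_pair_le a b n)
    split_ifs
    · rw [norm_mob]
    · rw [norm_zero]; exact zero_le_one

end Vale.Agent.P006.PS
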