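import Vale.Agent.P006.PS.Mellin

/-!
P006, block LV-B: separation of variables in `exp(-B/(ν_s ν_t))` (Mellin), mean-square form.
-/

namespace Vale.Agent.P006.PS

open MeasureTheory Complex
open scoped BigOperators

open scoped ComplexConjugate

theorem norm_cpow_line {x : ℝ} (hx : 0 < x) (σ u : ℝ) :
    ‖(x : ℂ) ^ (-(σ : ℂ) + 2 * (Real.pi : ℂ) * u * I)‖ = x ^ (-σ) := by
  rw [norm_cpow_eq_rpow_re_of_pos hx]
  congr 1
  simp

theorem conj_cpow_line {x : ℝ} (hx : 0 < x) (w : ℂ) :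
    conj ((x : ℂ) ^ w) = (x : ℂ) ^ (conj w) := by
  rw [cpow_conj _ _ (by rw [arg_ofReal_of_nonneg hx.le]; exact Real.pi_ne_zero.symm), conj_ofReal]

theorem sep_bound {σ : ℝ} (hσ : 0 < σ) : ∃ C : ℝ, 0 < C ∧
    ∀ {ι κ : Type} (S : Finset ι) (H : Finset κ) (z : ι → κ → ℂ) (ν : ι → ℝ) (B : κ → ℝ)
      (B₀ W : ℝ), (∀ s ∈ S, 0 < ν s) → 0 < B₀ → (∀ h ∈ H, B₀ ≤ B h) →
      (∀ u : ℝ, ∑ h ∈ H, ‖∑ s ∈ S, z s h * (ν s : ℂ) ^ ((σ : ℂ) + u * I)‖ ^ 2 ≤ W) →
      ∑ h ∈ H, ‖∑ s ∈ S, ∑ t ∈ S, z s h * conj (z t h) *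
        ((Real.exp (-(B h / (ν s * ν t))) : ℝ) : ℂ)‖ ≤ C * B₀ ^ (-σ) * W := by
  obtain ⟨ρ, C, hC, hρ, hb, hinv⟩ := mellin_exp hσ
  refine ⟨C * Real.pi, by positivity, ?_⟩
  intro ι κ S H z ν B B₀ W hν hB₀ hB hW
  have hW0 : 0 ≤ W := (Finset.sum_nonneg fun _ _ => sq_nonneg _).trans (hW 0)
  set X : κ → ℝ → ℂ := fun h u => ∑ s ∈ S, z s h * (ν s : ℂ) ^ ((σ : ℂ) + u * I) with hX
  set w : ℝ → ℂ := fun u => -(σ : ℂ) + 2 * (Real.pi : ℂ) * u * I with hw
  set F : κ → ℝ → ℂ := fun h u => ρ u * ((B h : ℂ) ^ (w u) *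
    (X h (-(2 * Real.pi * u)) * conj (X h (2 * Real.pi * u)))) with hF
  have hBpos : ∀ h ∈ H, 0 < B h := fun h hh => hB₀.trans_le (hB h hh)
  -- pointwise formula for F
  have hFeq : ∀ h ∈ H, ∀ u, F h u = ∑ s ∈ S, ∑ t ∈ S, z s h * conj (z t h) *
      (ρ u * ((B h / (ν s * ν t) : ℝ) : ℂ) ^ (w u)) := by
    intro h hh u
    simp only [hF, hX]
    rw [map_sum, Finset.sum_mul_sum, Finset.mul_sum, Finset.mul_sum]
    refine Finset.sum_congr rfl fun s hs => ?_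
    rw [Finset.mul_sum, Finset.mul_sum]
    refine Finset.sum_congr rfl fun t ht => ?_
    have ps := hν s hs
    have pt := hν t ht
    have pB := hBpos h hh
    rw [map_mul, conj_cpow_line pt]
    have e1 : conj ((σ : ℂ) + ((2 * Real.pi * u : ℝ) : ℂ) * I) = -(w u) := by
      simp only [hw, map_add, map_mul, conj_ofReal, conj_I]
      push_cast; ring
    have e2 : (σ : ℂ) + ((-(2 * Real.pi * u) : ℝ) : ℂ) * I = -(w u) := by
      simp only [hw]; push_cast; ring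
    have e3 : ((B h / (ν s * ν t) : ℝ) : ℂ) ^ (w u) =
        (B h : ℂ) ^ (w u) * ((ν s : ℂ) ^ (-(w u)) * (ν t : ℂ) ^ (-(w u))) := by
      have h1 : (B h / (ν s * ν t) : ℝ) = B h * ((ν s)⁻¹ * (ν t)⁻¹) := by
        rw [div_eq_mul_inv, mul_inv]
      rw [h1, ofReal_mul, mul_cpow_ofReal_nonneg pB.le (by positivity), ofReal_mul,
        mul_cpow_ofReal_nonneg (by positivity) (by positivity), ofReal_inv, ofReal_inv,
        inv_cpow _ _ (by rw [arg_ofReal_of_nonneg ps.le]; exact Real.pi_ne_zero.symm),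
        inv_cpow _ _ (by rw [arg_ofReal_of_nonneg pt.le]; exact Real.pi_ne_zero.symm),
        cpow_neg, cpow_neg]
    rw [e1, e2, e3]
    ring
  have hwc : Continuous w := by simp only [hw]; fun_prop
  have hcp : ∀ x : ℝ, 0 < x → Continuous fun u => (x : ℂ) ^ (w u) := fun x hx =>
    hwc.const_cpow (Or.inl (by exact_mod_cast hx.ne'))
  have hint : ∀ x : ℝ, 0 < x → Integrable fun u => ρ u * (x : ℂ) ^ (w u) := by
    intro x hx
    have h1 : Integrable fun u : ℝ => C * (1 + u ^ 2)⁻¹ * x ^ (-σ) :=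
      (integrable_inv_one_add_sq.const_mul C).mul_const _
    refine h1.mono' (hρ.mul (hcp x hx)).aestronglyMeasurable
      (Filter.Eventually.of_forall fun u => ?_)
    rw [norm_mul, hw, norm_cpow_line hx]
    exact mul_le_mul_of_nonneg_right (hb u) (by positivity)
  have hFint : ∀ h ∈ H, ∫ u, F h u = ∑ s ∈ S, ∑ t ∈ S, z s h * conj (z t h) *
        ((Real.exp (-(B h / (ν s * ν t))) : ℝ) : ℂ) := by
    intro h hh
    rw [integral_congr_ae (Filter.Eventually.of_forall (hFeq h hh)), integral_finsetSum]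
    · refine Finset.sum_congr rfl fun s hs => ?_
      rw [integral_finsetSum]
      · refine Finset.sum_congr rfl fun t ht => ?_
        have ps := hν s hs
        have pt := hν t ht
        have pB := hBpos h hh
        rw [integral_const_mul, hinv _ (by positivity)]
      · intro t ht
        have ps := hν s hs
        have pt := hν t ht
        have pB := hBpos h hh
        exact (hint _ (by positivity)).const_mul _
    · intro s hs
      refine integrable_finsetSum _ fun t ht => ?_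
      have ps := hν s hs
      have pt := hν t ht
      have pB := hBpos h hh
      exact (hint _ (by positivity)).const_mul _
  have hFi : ∀ h ∈ H, Integrable (F h) := by
    intro h hh
    have h1 : F h = fun u => ∑ s ∈ S, ∑ t ∈ S, z s h * conj (z t h) *
      (ρ u * ((B h / (ν s * ν t) : ℝ) : ℂ) ^ (w u)) := funext (hFeq h hh)
    rw [h1]
    refine integrable_finsetSum _ fun s hs => integrable_finsetSum _ fun t ht => ?_
    have ps := hν s hs
    have pt := hν t ht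
    have pB := hBpos h hh
    exact (hint _ (by positivity)).const_mul _
  have hFn : ∀ u, ∑ h ∈ H, ‖F h u‖ ≤ C * (1 + u ^ 2)⁻¹ * (B₀ ^ (-σ) * W) := by
    intro u
    have h1 : ∀ h ∈ H, ‖F h u‖ ≤ C * (1 + u ^ 2)⁻¹ * (B₀ ^ (-σ) *
        (1 / 2 * ‖X h (-(2 * Real.pi * u))‖ ^ 2 + 1 / 2 * ‖X h (2 * Real.pi * u)‖ ^ 2)) := by
      intro h hh
      simp only [hF]
      rw [norm_mul, norm_mul, hw, norm_cpow_line (hBpos h hh), norm_mul, norm_conj]
      have hb' := hb u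
      have hBb : B h ^ (-σ) ≤ B₀ ^ (-σ) :=
        Real.rpow_le_rpow_of_nonpos hB₀ (hB h hh) (by linarith)
      have hxy : ‖X h (-(2 * Real.pi * u))‖ * ‖X h (2 * Real.pi * u)‖ ≤
          1 / 2 * ‖X h (-(2 * Real.pi * u))‖ ^ 2 + 1 / 2 * ‖X h (2 * Real.pi * u)‖ ^ 2 := by
        nlinarith [sq_nonneg (‖X h (-(2 * Real.pi * u))‖ - ‖X h (2 * Real.pi * u)‖)]
      have hBn : 0 ≤ B h ^ (-σ) := by have := hBpos h hh; positivity
      gcongr
    calc ∑ h ∈ H, ‖F h u‖ ≤ ∑ h ∈ H, C * (1 + u ^ 2)⁻¹ * (B₀ ^ (-σ) *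
        (1 / 2 * ‖X h (-(2 * Real.pi * u))‖ ^ 2 + 1 / 2 * ‖X h (2 * Real.pi * u)‖ ^ 2)) :=
          Finset.sum_le_sum h1
      _ = C * (1 + u ^ 2)⁻¹ * (B₀ ^ (-σ) * (1 / 2 * ∑ h ∈ H, ‖X h (-(2 * Real.pi * u))‖ ^ 2 +
          1 / 2 * ∑ h ∈ H, ‖X h (2 * Real.pi * u)‖ ^ 2)) := by
        rw [← Finset.mul_sum, ← Finset.mul_sum, Finset.sum_add_distrib, ← Finset.mul_sum,
          ← Finset.mul_sum]
      _ ≤ C * (1 + u ^ 2)⁻¹ * (B₀ ^ (-σ) * W) := by
        have h2 := hW (-(2 * Real.pi * u))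
        have h3 := hW (2 * Real.pi * u)
        simp only [hX]
        gcongr
        linarith
  calc ∑ h ∈ H, ‖∑ s ∈ S, ∑ t ∈ S, z s h * conj (z t h) *
        ((Real.exp (-(B h / (ν s * ν t))) : ℝ) : ℂ)‖ = ∑ h ∈ H, ‖∫ u, F h u‖ :=
        Finset.sum_congr rfl fun h hh => by rw [hFint h hh]
    _ ≤ ∑ h ∈ H, ∫ u, ‖F h u‖ := Finset.sum_le_sum fun h _ => norm_integral_le_integral_norm _
    _ = ∫ u, ∑ h ∈ H, ‖F h u‖ := (integral_finsetSum _ fun h hh => (hFi h hh).norm).symm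
    _ ≤ ∫ u : ℝ, C * (1 + u ^ 2)⁻¹ * (B₀ ^ (-σ) * W) := by
        refine integral_mono (integrable_finsetSum _ fun h hh => (hFi h hh).norm)
          ((integrable_inv_one_add_sq.const_mul C).mul_const _) hFn
    _ = C * Real.pi * B₀ ^ (-σ) * W := by
        rw [integral_mul_const, integral_const_mul, integral_univ_inv_one_add_sq]
        ring

end Vale.Agent.P006.PS
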