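import Vale.Agent.P006.PS.Expand
import Vale.Agent.P006.PS.Sep

/-!
P006, block LV-B: dyadic levels of the dual sum.
-/

namespace Vale.Agent.P006.PS

open scoped BigOperators Real
open Vale.Agent.P006 Vale.Agent.P006.V1 Vale.Agent.P006.HB

open scoped ComplexConjugate

open Classical in
/-- the dyadic level `2^(j-1) < N h ≤ 2^j` -/
noncomputable def Lv (j : ℕ) : Finset O := (Hn ((2 : ℝ) ^ j)).filter (fun h => (2 : ℝ) ^ j < 2 * N h)

theorem mem_Lv {j : ℕ} {h : O} :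
    h ∈ Lv j ↔ ((N h : ℝ) ≤ 2 ^ j ∧ h ≠ 0) ∧ (2 : ℝ) ^ j < 2 * N h := by
  rw [Lv, Finset.mem_filter, mem_Hn]

theorem Lv_subset (j : ℕ) : Lv j ⊆ Hn ((2 : ℝ) ^ j) := Finset.filter_subset _ _

theorem sum_Hn_le {g : O → ℝ} (hg : ∀ h, 0 ≤ g h) (J : ℕ) :
    ∑ h ∈ Hn ((2 : ℝ) ^ J), g h ≤ ∑ j ∈ Finset.range (J + 1), ∑ h ∈ Lv j, g h := by
  classical
  induction J with
  | zero =>
    rw [Finset.sum_range_one]
    refine Finset.sum_le_sum_of_subset_of_nonneg (fun h hh => ?_) fun h _ _ => hg h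
    rw [mem_Hn] at hh
    rw [mem_Lv]
    refine ⟨hh, ?_⟩
    have : (1 : ℝ) ≤ N h := by exact_mod_cast Vale.Agent.P006.N_pos hh.2
    rw [pow_zero]; linarith
  | succ J ih =>
    rw [Finset.sum_range_succ]
    refine le_trans ?_ (add_le_add_left ih _)
    have hsub : Hn ((2 : ℝ) ^ (J + 1)) ⊆ Hn ((2 : ℝ) ^ J) ∪ Lv (J + 1) := by
      intro h hh
      rw [mem_Hn] at hh
      rw [Finset.mem_union, mem_Hn, mem_Lv]
      by_cases h1 : (N h : ℝ) ≤ 2 ^ J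
      · exact Or.inl ⟨h1, hh.2⟩
      · push Not at h1
        refine Or.inr ⟨hh, ?_⟩
        rw [pow_succ]; linarith
    calc ∑ h ∈ Hn ((2 : ℝ) ^ (J + 1)), g h ≤ ∑ h ∈ Hn ((2 : ℝ) ^ J) ∪ Lv (J + 1), g h :=
          Finset.sum_le_sum_of_subset_of_nonneg hsub fun h _ _ => hg h
      _ ≤ ∑ h ∈ Hn ((2 : ℝ) ^ J), g h + ∑ h ∈ Lv (J + 1), g h := by
          rw [← Finset.sum_union_inter]
          have : 0 ≤ ∑ h ∈ Hn ((2 : ℝ) ^ J) ∩ Lv (J + 1), g h := Finset.sum_nonneg fun h _ => hg h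
          linarith

theorem norm_tsum_le_levels {G : O → ℂ} (hG : Summable G) {w : ℕ → ℝ} {S : ℝ}
    (hw : ∀ j, ∑ h ∈ Lv j, ‖G h‖ ≤ w j) (hS : ∀ J, ∑ j ∈ Finset.range J, w j ≤ S) :
    ‖∑' h : O, if h = 0 then 0 else G h‖ ≤ S := by
  classical
  have hG' : Summable fun h : O => ‖(if h = 0 then 0 else G h : ℂ)‖ := by
    refine Summable.of_nonneg_of_le (fun _ => norm_nonneg _) (fun h => ?_) hG.norm
    split_ifs
    · rw [norm_zero]; exact norm_nonneg _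
    · exact le_rfl
  refine (norm_tsum_le_tsum_norm hG').trans ?_
  refine Real.tsum_le_of_sum_le (fun _ => norm_nonneg _) fun F => ?_
  have h1 : ∑ h ∈ F, ‖(if h = 0 then 0 else G h : ℂ)‖ = ∑ h ∈ F.filter (fun h => h ≠ 0), ‖G h‖ := by
    rw [Finset.sum_filter]
    refine Finset.sum_congr rfl fun h _ => ?_
    by_cases h0 : h = 0 <;> simp [h0]
  rw [h1]
  set J : ℕ := ∑ h ∈ F, N h with hJ
  have hsub : F.filter (fun h => h ≠ 0) ⊆ Hn ((2 : ℝ) ^ J) := by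
    intro h hh
    rw [Finset.mem_filter] at hh
    rw [mem_Hn]
    refine ⟨?_, hh.2⟩
    have h2 : N h ≤ J := Finset.single_le_sum (f := fun h => N h) (fun _ _ => Nat.zero_le _) hh.1
    have h3 : J < 2 ^ J := Nat.lt_two_pow_self
    exact_mod_cast (h2.trans h3.le)
  calc ∑ h ∈ F.filter (fun h => h ≠ 0), ‖G h‖ ≤ ∑ h ∈ Hn ((2 : ℝ) ^ J), ‖G h‖ :=
        Finset.sum_le_sum_of_subset_of_nonneg hsub fun _ _ _ => norm_nonneg _
    _ ≤ ∑ j ∈ Finset.range (J + 1), ∑ h ∈ Lv j, ‖G h‖ := sum_Hn_le (fun _ => norm_nonneg _) J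
    _ ≤ ∑ j ∈ Finset.range (J + 1), w j := Finset.sum_le_sum fun j _ => hw j
    _ ≤ S := hS _

theorem rpow_two_le {σ R v : ℝ} (hσ : 0 < σ) (hR : 0 < R) (h1 : R / 2 < v) (h2 : v ≤ R) :
    v ^ (2 * σ - 1) ≤ 2 * R ^ (2 * σ - 1) := by
  have hv : 0 < v := lt_trans (by positivity) h1
  rcases le_total 0 (2 * σ - 1) with h | h
  · calc v ^ (2 * σ - 1) ≤ R ^ (2 * σ - 1) := Real.rpow_le_rpow hv.le h2 h
      _ ≤ 2 * R ^ (2 * σ - 1) := by
        have : 0 < R ^ (2 * σ - 1) := by positivity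
        linarith
  · calc v ^ (2 * σ - 1) ≤ (R / 2) ^ (2 * σ - 1) :=
          Real.rpow_le_rpow_of_nonpos (by positivity) h1.le h
      _ = R ^ (2 * σ - 1) * 2 ^ (1 - 2 * σ) := by
          rw [Real.div_rpow hR.le (by norm_num), div_eq_mul_inv, ← Real.rpow_neg (by norm_num)]
          congr 2; ring
      _ ≤ R ^ (2 * σ - 1) * 2 ^ (1 : ℝ) := by
          gcongr
          · norm_num
          · linarith
      _ = 2 * R ^ (2 * σ - 1) := by rw [Real.rpow_one]; ring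

theorem level_sigma {σ : ℝ} (hσ : 0 < σ) : ∃ C : ℝ, 0 < C ∧
    ∀ (S : Finset O) (y c : O → ℂ) (m : O) (t : O → O) (q R V : ℝ) (j : ℕ),
      0 < q → 0 < R → m ≠ 0 →
      (∀ k ∈ S, t k ≠ 0 ∧ R / 2 < N (m * t k) ∧ (N (m * t k) : ℝ) ≤ R ∧
        ‖y k‖ ≤ ‖c k‖ / Real.sqrt (N (m * t k))) →
      (∀ x : O → ℂ, (∀ k ∈ S, ‖x k‖ ≤ ‖c k‖) →
        ∑ h ∈ Hn ((2 : ℝ) ^ j), ‖∑ k ∈ S, x k * ch (t k) h‖ ^ 2 ≤ V) →
      ∑ h ∈ Lv j, ‖∑ k ∈ S, ∑ l ∈ S, (y k * ch (m * t k) h) * conj (y l * ch (m * t l) h) *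
        ((Real.exp (-(b0 * q * N h / (N (m * t k) * N (m * t l)))) : ℝ) : ℂ)‖ ≤
        C * ((q * 2 ^ j) ^ (-σ) * R ^ (2 * σ - 1) * V) := by
  obtain ⟨C, hC, hsep⟩ := sep_bound hσ
  refine ⟨C * (b0 / 2) ^ (-σ) * 2, by have := b0_pos; positivity, ?_⟩
  intro S y c m t q R V j hq hR hm hS hV
  have hb := b0_pos
  have hnu : ∀ k ∈ S, (0 : ℝ) < N (m * t k) := fun k hk => by
    exact_mod_cast N_pos (mul_ne_zero hm (hS k hk).1)
  have hL2 : 0 < 2 * R ^ (2 * σ - 1) := by positivity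
  set L : ℝ := Real.sqrt (2 * R ^ (2 * σ - 1)) with hL
  have hLpos : 0 < L := Real.sqrt_pos.2 hL2
  have hLsq : L ^ 2 = 2 * R ^ (2 * σ - 1) := Real.sq_sqrt hL2.le
  have key := hsep S (Lv j) (fun k h => y k * ch (m * t k) h) (fun k => (N (m * t k) : ℝ))
    (fun h => b0 * q * N h) (b0 * q * (2 ^ j / 2)) (2 * R ^ (2 * σ - 1) * V) hnu (by positivity)
    (fun h hh => by
      rw [mem_Lv] at hh
      have : (2 : ℝ) ^ j / 2 ≤ N h := by linarith [hh.2]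
      gcongr) ?_
  · refine key.trans (le_of_eq ?_)
    have e1 : (b0 * q * (2 ^ j / 2)) ^ (-σ) = (b0 / 2) ^ (-σ) * (q * 2 ^ j) ^ (-σ) := by
      rw [← Real.mul_rpow (by positivity) (by positivity)]
      congr 1; ring
    rw [e1]; ring
  · intro u
    set x : O → ℂ := fun k => y k * ((N (m * t k) : ℝ) : ℂ) ^ ((σ : ℂ) + u * Complex.I) / L with hx
    have hxc : ∀ k ∈ S, ‖x k‖ ≤ ‖c k‖ := by
      intro k hk
      obtain ⟨-, h1, h2, h3⟩ := hS k hk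
      have hn := hnu k hk
      simp only [hx]
      rw [norm_div, norm_mul, Complex.norm_real, Real.norm_of_nonneg hLpos.le,
        Complex.norm_cpow_eq_rpow_re_of_pos hn, div_le_iff₀ hLpos]
      have e1 : ((σ : ℂ) + u * Complex.I).re = σ := by simp
      rw [e1]
      have e2 : (N (m * t k) : ℝ) ^ σ / Real.sqrt (N (m * t k)) ≤ L := by
        apply Real.le_sqrt_of_sq_le
        rw [div_pow, Real.sq_sqrt hn.le, ← Real.rpow_natCast, ← Real.rpow_mul hn.le]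
        calc (N (m * t k) : ℝ) ^ (σ * (2 : ℕ)) / (N (m * t k)) =
            (N (m * t k) : ℝ) ^ (2 * σ - 1) := by
              rw [Real.rpow_sub hn, Real.rpow_one]
              congr 2; push_cast; ring
          _ ≤ _ := rpow_two_le hσ hR h1 h2
      calc ‖y k‖ * (N (m * t k) : ℝ) ^ σ ≤ ‖c k‖ / Real.sqrt (N (m * t k)) *
            (N (m * t k) : ℝ) ^ σ := by gcongr
        _ = ‖c k‖ * ((N (m * t k) : ℝ) ^ σ / Real.sqrt (N (m * t k))) := by ring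
        _ ≤ ‖c k‖ * L := by gcongr
    have h1 := hV x hxc
    have h2 : ∀ h ∈ Lv j, ‖∑ k ∈ S, y k * ch (m * t k) h *
        ((N (m * t k) : ℝ) : ℂ) ^ ((σ : ℂ) + u * Complex.I)‖ ^ 2 ≤
        L ^ 2 * ‖∑ k ∈ S, x k * ch (t k) h‖ ^ 2 := by
      intro h _
      have e1 : ∑ k ∈ S, y k * ch (m * t k) h *
          ((N (m * t k) : ℝ) : ℂ) ^ ((σ : ℂ) + u * Complex.I) =
          ch m h * ((L : ℂ) * ∑ k ∈ S, x k * ch (t k) h) := by
        rw [Finset.mul_sum, Finset.mul_sum]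
        refine Finset.sum_congr rfl fun k hk => ?_
        have hL' : (L : ℂ) ≠ 0 := by exact_mod_cast hLpos.ne'
        simp only [hx]
        rw [ch_mul_left hm (hS k hk).1]
        field_simp
      rw [e1, norm_mul, norm_mul, Complex.norm_real, Real.norm_of_nonneg hLpos.le, mul_pow,
        mul_pow]
      have h3 : ‖ch m h‖ ^ 2 ≤ 1 := pow_le_one₀ (norm_nonneg _) (norm_sym_le _ _)
      have h4 : 0 ≤ L ^ 2 * ‖∑ k ∈ S, x k * ch (t k) h‖ ^ 2 := by positivity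
      nlinarith
    calc ∑ h ∈ Lv j, ‖∑ k ∈ S, y k * ch (m * t k) h *
        ((N (m * t k) : ℝ) : ℂ) ^ ((σ : ℂ) + u * Complex.I)‖ ^ 2
        ≤ ∑ h ∈ Lv j, L ^ 2 * ‖∑ k ∈ S, x k * ch (t k) h‖ ^ 2 := Finset.sum_le_sum h2
      _ = L ^ 2 * ∑ h ∈ Lv j, ‖∑ k ∈ S, x k * ch (t k) h‖ ^ 2 := by rw [Finset.mul_sum]
      _ ≤ L ^ 2 * ∑ h ∈ Hn ((2 : ℝ) ^ j), ‖∑ k ∈ S, x k * ch (t k) h‖ ^ 2 := by
          gcongr
          exact Lv_subset j
      _ ≤ L ^ 2 * V := by gcongr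
      _ = 2 * R ^ (2 * σ - 1) * V := by rw [hLsq]

/-- geometric bound for all levels, with the right choice of `σ` -/
theorem level_geom {ε A : ℝ} (hε : 0 < ε) (hε1 : ε ≤ 1) (hA : 0 ≤ A) : ∃ C : ℝ, 0 < C ∧
    ∀ (S : Finset O) (y c : O → ℂ) (m : O) (t : O → O) (q R Bd : ℝ) (j : ℕ),
      0 < q → 0 < R → 0 ≤ Bd → m ≠ 0 →
      (∀ k ∈ S, t k ≠ 0 ∧ R / 2 < N (m * t k) ∧ (N (m * t k) : ℝ) ≤ R ∧
        ‖y k‖ ≤ ‖c k‖ / Real.sqrt (N (m * t k))) →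
      (∀ x : O → ℂ, (∀ k ∈ S, ‖x k‖ ≤ ‖c k‖) →
        (q / R) * (min 1 (R ^ 2 / (q * 2 ^ j))) ^ A *
        ∑ h ∈ Hn ((2 : ℝ) ^ j), ‖∑ k ∈ S, x k * ch (t k) h‖ ^ 2 ≤ Bd) →
      q * ∑ h ∈ Lv j, ‖∑ k ∈ S, ∑ l ∈ S, (y k * ch (m * t k) h) * conj (y l * ch (m * t l) h) *
        ((Real.exp (-(b0 * q * N h / (N (m * t k) * N (m * t l)))) : ℝ) : ℂ)‖ ≤
        C * ((R ^ 2 / (q * 2 ^ j)) ^ ε * Bd) := by
  obtain ⟨C1, hC1, h1⟩ := level_sigma hε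
  obtain ⟨C2, hC2, h2⟩ := level_sigma (σ := A + 1) (by linarith)
  refine ⟨max C1 C2, lt_max_of_lt_left hC1, ?_⟩
  intro S y c m t q R Bd j hq hR hBd hm hS hV
  set r : ℝ := R ^ 2 / (q * 2 ^ j) with hr
  have hr0 : 0 < r := by positivity
  set κ : ℝ := (q / R) * (min 1 r) ^ A with hκ
  have hmin : 0 < min 1 r := lt_min one_pos hr0
  have hκ0 : 0 < κ := by positivity
  have hV' : ∀ x : O → ℂ, (∀ k ∈ S, ‖x k‖ ≤ ‖c k‖) →
        ∑ h ∈ Hn ((2 : ℝ) ^ j), ‖∑ k ∈ S, x k * ch (t k) h‖ ^ 2 ≤ Bd / κ := by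
    intro x hx
    rw [le_div_iff₀ hκ0, mul_comm]
    exact hV x hx
  have halg : ∀ σ : ℝ, q * ((q * 2 ^ j) ^ (-σ) * R ^ (2 * σ - 1) * (Bd / κ)) =
      r ^ σ * (min 1 r) ^ (-A) * Bd := by
    intro σ
    have e1 : r ^ σ = (q * 2 ^ j) ^ (-σ) * R ^ (2 * σ) := by
      have e0 : R ^ (2 * σ) = (R ^ 2) ^ σ := by
        rw [Real.rpow_mul hR.le]; congr 1; exact_mod_cast Real.rpow_natCast R 2
      rw [hr, Real.div_rpow (by positivity) (by positivity), Real.rpow_neg (by positivity),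
        div_eq_mul_inv, mul_comm, e0]
    have e2 : R ^ (2 * σ - 1) = R ^ (2 * σ) / R := by rw [Real.rpow_sub hR, Real.rpow_one]
    have e3 : (min 1 r) ^ (-A) = ((min 1 r) ^ A)⁻¹ := Real.rpow_neg hmin.le _
    have hm0 : (min 1 r) ^ A ≠ 0 := by positivity
    rw [e1, e2, e3, hκ]
    field_simp
  by_cases hr1 : 1 ≤ r
  · have h := h1 S y c m t q R (Bd / κ) j hq hR hm hS hV'
    calc _ ≤ q * (C1 * ((q * 2 ^ j) ^ (-ε) * R ^ (2 * ε - 1) * (Bd / κ))) := by gcongr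
      _ = C1 * (q * ((q * 2 ^ j) ^ (-ε) * R ^ (2 * ε - 1) * (Bd / κ))) := by ring
      _ = C1 * (r ^ ε * Bd) := by rw [halg, min_eq_left hr1, Real.one_rpow, mul_one]
      _ ≤ _ := by gcongr; exact le_max_left _ _
  · push Not at hr1
    have h := h2 S y c m t q R (Bd / κ) j hq hR hm hS hV'
    calc _ ≤ q * (C2 * ((q * 2 ^ j) ^ (-(A + 1)) * R ^ (2 * (A + 1) - 1) * (Bd / κ))) := by
            gcongr
      _ = C2 * (q * ((q * 2 ^ j) ^ (-(A + 1)) * R ^ (2 * (A + 1) - 1) * (Bd / κ))) := by ring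
      _ = C2 * (r * Bd) := by
          rw [halg, min_eq_right hr1.le, ← Real.rpow_add hr0]
          congr 2
          have : A + 1 + -A = 1 := by ring
          rw [this, Real.rpow_one]
      _ ≤ C2 * (r ^ ε * Bd) := by
          gcongr
          calc r = r ^ (1 : ℝ) := (Real.rpow_one r).symm
            _ ≤ r ^ ε := Real.rpow_le_rpow_of_exponent_ge hr0 hr1.le hε1
      _ ≤ _ := by gcongr; exact le_max_right _ _

end Vale.Agent.P006.PS
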