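import Vale.Agent.P006.PS.Level

/-!
P006, block LV-B: **the Poisson inequality** (P*).
-/

namespace Vale.Agent.P006.PS

open scoped BigOperators Real
open Vale.Agent.P006 Vale.Agent.P006.V1 Vale.Agent.P006.HB

open scoped ComplexConjugate

theorem sum4_comm {S T U : Finset O} {V : O → Finset O} (f : O → O → O → O → ℂ) :
    ∑ k ∈ S, ∑ l ∈ T, ∑ δ ∈ U, ∑ d ∈ V δ, f k l δ d =
      ∑ δ ∈ U, ∑ d ∈ V δ, ∑ k ∈ S, ∑ l ∈ T, f k l δ d := by
  calc ∑ k ∈ S, ∑ l ∈ T, ∑ δ ∈ U, ∑ d ∈ V δ, f k l δ d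
      = ∑ k ∈ S, ∑ δ ∈ U, ∑ l ∈ T, ∑ d ∈ V δ, f k l δ d :=
        Finset.sum_congr rfl fun k _ => Finset.sum_comm
    _ = ∑ δ ∈ U, ∑ k ∈ S, ∑ l ∈ T, ∑ d ∈ V δ, f k l δ d := Finset.sum_comm
    _ = ∑ δ ∈ U, ∑ k ∈ S, ∑ d ∈ V δ, ∑ l ∈ T, f k l δ d :=
        Finset.sum_congr rfl fun δ _ => Finset.sum_congr rfl fun k _ => Finset.sum_comm
    _ = _ := Finset.sum_congr rfl fun δ _ => Finset.sum_comm

theorem sum_pair_filter {S U : Finset O} (X : O → O → O → ℂ) :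
    ∑ k ∈ S, ∑ l ∈ S, ∑ e ∈ U, (if e ∣ k ∧ e ∣ l then X e k l else 0) =
      ∑ e ∈ U, ∑ k ∈ S.filter (fun k => e ∣ k), ∑ l ∈ S.filter (fun l => e ∣ l), X e k l := by
  have h1 : ∀ k ∈ S, ∑ l ∈ S, ∑ e ∈ U, (if e ∣ k ∧ e ∣ l then X e k l else 0) =
      ∑ e ∈ U, ∑ l ∈ S, (if e ∣ k ∧ e ∣ l then X e k l else 0) := fun k _ => Finset.sum_comm
  rw [Finset.sum_congr rfl h1, Finset.sum_comm]
  refine Finset.sum_congr rfl fun e _ => ?_
  rw [Finset.sum_filter]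
  refine Finset.sum_congr rfl fun k _ => ?_
  split_ifs with h
  · rw [Finset.sum_filter]
    refine Finset.sum_congr rfl fun l _ => ?_
    simp [h]
  · exact Finset.sum_eq_zero fun l _ => by simp [h]

theorem ch_zero_right {a : O} (ha : Primary a) : ch a 0 = if a = 1 then 1 else 0 := by
  split_ifs with h
  · rw [h, ch_one_left]
  · rw [ch, sym_eq_zero.2, map_zero]
    intro h1
    exact h (ha.eq_one (isCoprime_zero_left.1 h1))

/-- the diagonal part -/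
noncomputable def zpart (M : ℝ) (δ a b : O) : ℂ :=
  ∑ d ∈ D δ, mob d * (conj (ch a d) * ch b d) *
    (((M / N d / (Real.sqrt (N a) * Real.sqrt (N b)) : ℝ) : ℂ) *
      ((gam a * conj (gam b)) * (ch a 0 * conj (ch b 0))))

/-- one summand of the off-diagonal part -/
noncomputable def oterm (M : ℝ) (d a b : O) : ℂ :=
  mob d * (conj (ch a d) * ch b d) *
    (((M / N d / (Real.sqrt (N a) * Real.sqrt (N b)) : ℝ) : ℂ) *
      ((gam a * conj (gam b)) * dsum (M / N d) a b))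

theorem psum_eq {M : ℝ} (hM : 0 < M) {δ a b : O} (hδ : Prim δ) (sδ : Squarefree δ)
    (ha : Prim a) (hb : Prim b) (sa : Squarefree a) (sb : Squarefree b) (hab : IsCoprime a b) :
    psum M (δ * a) (δ * b) = zpart M δ a b + ∑ d ∈ D δ, oterm M d a b := by
  rw [psum_mul hM hδ sδ ha.ne_zero hb.ne_zero, zpart, ← Finset.sum_add_distrib]
  refine Finset.sum_congr rfl fun d hd => ?_
  rw [mem_D hδ.ne_zero] at hd
  have hd0 : (0 : ℝ) < N d := by exact_mod_cast hd.1.N_pos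
  rw [psum_split ha hb sa sb hab (by positivity), oterm]
  ring

theorem zpart_eq_zero {M : ℝ} {δ a b : O} (ha : Prim a) (hb : Prim b) (h : ¬ (a = 1 ∧ b = 1)) :
    zpart M δ a b = 0 := by
  have h0 : ch a 0 * conj (ch b 0) = 0 := by
    rw [ch_zero_right ha, ch_zero_right hb]
    by_cases h1 : a = 1 <;> by_cases h2 : b = 1 <;> simp_all
  rw [zpart]
  refine Finset.sum_eq_zero fun d _ => ?_
  rw [h0]; ring

theorem gt_one_right' : gam 1 = 1 := by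
  rw [gam, ch_one_left, gt_one_right]; simp

theorem norm_zpart_le {M : ℝ} (hM : 0 < M) {δ : O} (hδ : Prim δ) :
    ‖zpart M δ 1 1‖ ≤ M * (D δ).card := by
  rw [zpart]
  refine (norm_sum_le _ _).trans ?_
  calc ∑ d ∈ D δ, ‖mob d * (conj (ch 1 d) * ch 1 d) *
    (((M / N d / (Real.sqrt (N 1) * Real.sqrt (N 1)) : ℝ) : ℂ) *
      ((gam 1 * conj (gam 1)) * (ch 1 0 * conj (ch 1 0))))‖ ≤ ∑ d ∈ D δ, M := by
        refine Finset.sum_le_sum fun d hd => ?_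
        rw [mem_D hδ.ne_zero] at hd
        have hd0 : (1 : ℝ) ≤ N d := by exact_mod_cast hd.1.N_pos
        rw [norm_mul, norm_mul, norm_mul, norm_mob, gt_one_right', norm_mul, Complex.norm_real]
        simp only [ch_one_left, map_one, mul_one, norm_one, one_mul, N_one, Nat.cast_one,
          Real.sqrt_one, div_one]
        rw [Real.norm_of_nonneg (by positivity)]
        exact div_le_self hM.le hd0
    _ = M * (D δ).card := by rw [Finset.sum_const, nsmul_eq_mul, mul_comm]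

/-- the common primary divisors of two elements of `SF K` -/
theorem D_eq_filter {K : ℝ} {δ a b : O} (hδ : Prim δ) (hk : δ * a ∈ SF K)
    (hab : IsCoprime a b) :
    D δ = (SF K).filter (fun e => e ∣ δ * a ∧ e ∣ δ * b) := by
  classical
  ext e
  rw [mem_D hδ.ne_zero, Finset.mem_filter, mem_SF]
  rw [mem_SF] at hk
  constructor
  · rintro ⟨h1, h2⟩
    have h3 : e ∣ δ * a := h2.mul_right a
    refine ⟨⟨?_, h1, hk.2.2.squarefree_of_dvd h3⟩, h3, h2.mul_right b⟩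
    refine le_trans ?_ hk.1
    exact_mod_cast Nat.le_of_dvd (Vale.Agent.P006.N_pos hk.2.1.ne_zero) (N_dvd_N h3)
  · rintro ⟨⟨-, h1, -⟩, h3, h4⟩
    refine ⟨h1, ?_⟩
    obtain ⟨x, y, hxy⟩ := hab
    have : δ = x * (δ * a) + y * (δ * b) := by linear_combination (-δ) * hxy
    rw [this]
    exact dvd_add (h3.mul_left x) (h4.mul_left y)

/-- decomposition of the pair sum for `k, l ∈ SF K` -/
theorem psum_decomp {K M : ℝ} (hM : 0 < M) {k l : O} (hk : k ∈ SF K) (hl : l ∈ SF K) :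
    ∃ z : ℂ, ‖z‖ ≤ (if k = l then M * (D k).card else 0) ∧
      psum M k l = z + ∑ e ∈ SF K, (if e ∣ k ∧ e ∣ l then
        ∑ δ ∈ D e, ∑ d ∈ D δ, mob (e / δ) * oterm M d (k / δ) (l / δ) else 0) := by
  classical
  have hk' := mem_SF.1 hk
  have hl' := mem_SF.1 hl
  obtain ⟨δ, a, b, hδ, ha, hb, rfl, rfl, hab⟩ := exists_pgcd hk'.2.1 hl'.2.1
  have sδ : Squarefree δ := hk'.2.2.squarefree_of_dvd (dvd_mul_right _ _)
  have sa : Squarefree a := hk'.2.2.squarefree_of_dvd (dvd_mul_left _ _)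
  have sb : Squarefree b := hl'.2.2.squarefree_of_dvd (dvd_mul_left _ _)
  refine ⟨zpart M δ a b, ?_, ?_⟩
  · split_ifs with h
    · have hab' : a = b := mul_left_cancel₀ hδ.ne_zero h
      subst hab'
      have ha1 : a = 1 := ha.eq_one_of_isUnit (isCoprime_self.1 hab)
      subst ha1
      rw [mul_one]
      exact norm_zpart_le hM hδ
    · rw [zpart_eq_zero ha hb, norm_zero]
      rintro ⟨rfl, rfl⟩
      exact h rfl
  · rw [psum_eq hM hδ sδ ha hb sa sb hab]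
    congr 1
    have h1 := mob_collapse δ hδ sδ (fun δ' => ∑ d ∈ D δ', oterm M d (δ * a / δ') (δ * b / δ'))
    simp only [mul_div_cancel_left₀ _ hδ.ne_zero] at h1
    rw [← h1, D_eq_filter hδ hk hab, Finset.sum_filter]
    refine Finset.sum_congr rfl fun e _ => ?_
    congr 1
    refine Finset.sum_congr rfl fun δ' _ => ?_
    rw [Finset.mul_sum]

/-- the Gaussian-weighted mean square as a sum over pairs -/
theorem tsum_sq_eq {M : ℝ} (hM : 0 < M) (𝒦 : Finset O) (c : O → ℂ) :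
    ((∑' n : O, ‖∑ k ∈ 𝒦, c k * ch k n‖ ^ 2 * Real.exp (-(b0 * N n / M)) : ℝ) : ℂ) =
      ∑ k ∈ 𝒦, ∑ l ∈ 𝒦, conj (c k) * c l * psum M k l := by
  rw [Complex.ofReal_tsum]
  have h1 : ∀ n : O, ((‖∑ k ∈ 𝒦, c k * ch k n‖ ^ 2 * Real.exp (-(b0 * N n / M)) : ℝ) : ℂ) =
      ∑ k ∈ 𝒦, ∑ l ∈ 𝒦, conj (c k) * c l * ((conj (ch k n) * ch l n) *
        ((Real.exp (-(b0 * N n / M)) : ℝ) : ℂ)) := by
    intro n
    rw [Complex.ofReal_mul, Complex.ofReal_pow, ← Complex.conj_mul', map_sum,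
      Finset.sum_mul_sum, Finset.sum_mul]
    refine Finset.sum_congr rfl fun k _ => ?_
    rw [Finset.sum_mul]
    refine Finset.sum_congr rfl fun l _ => ?_
    rw [map_mul]; ring
  have hs : ∀ k l : O, Summable fun n : O => conj (c k) * c l * ((conj (ch k n) * ch l n) *
        ((Real.exp (-(b0 * N n / M)) : ℝ) : ℂ)) := fun k l =>
    (summable_pair hM (norm_pair_le k l)).mul_left _
  rw [tsum_congr h1, Summable.tsum_finsetSum fun k _ => summable_sum fun l _ => hs k l]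
  refine Finset.sum_congr rfl fun k _ => ?_
  rw [Summable.tsum_finsetSum fun l _ => hs k l]
  refine Finset.sum_congr rfl fun l _ => ?_
  rw [tsum_mul_left, psum]

theorem summable_sq {M : ℝ} (hM : 0 < M) (𝒦 : Finset O) (c : O → ℂ) :
    Summable fun n : O => ‖∑ k ∈ 𝒦, c k * ch k n‖ ^ 2 * Real.exp (-(b0 * N n / M)) := by
  have h := (PO.dec_summable_O (gau_dec hM)).norm
  refine Summable.of_nonneg_of_le (fun n => by positivity) (fun n => ?_)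
    (h.mul_left ((∑ k ∈ 𝒦, ‖c k‖) ^ 2))
  rw [gau_toC, Complex.norm_real, Real.norm_of_nonneg (Real.exp_pos _).le]
  gcongr
  refine (norm_sum_le _ _).trans (Finset.sum_le_sum fun k _ => ?_)
  rw [norm_mul]
  exact mul_le_of_le_one_right (norm_nonneg _) (norm_sym_le _ _)

theorem sum_le_exp_tsum {M : ℝ} (hM : 0 < M) (𝒦 : Finset O) (c : O → ℂ) :
    ∑ n ∈ Hn M, ‖∑ k ∈ 𝒦, c k * ch k n‖ ^ 2 ≤
      Real.exp b0 * ∑' n : O, ‖∑ k ∈ 𝒦, c k * ch k n‖ ^ 2 * Real.exp (-(b0 * N n / M)) := by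
  have h1 : ∑ n ∈ Hn M, ‖∑ k ∈ 𝒦, c k * ch k n‖ ^ 2 ≤ ∑ n ∈ Hn M,
      Real.exp b0 * (‖∑ k ∈ 𝒦, c k * ch k n‖ ^ 2 * Real.exp (-(b0 * N n / M))) := by
    refine Finset.sum_le_sum fun n hn => ?_
    rw [mem_Hn] at hn
    have h2 : 1 ≤ Real.exp b0 * Real.exp (-(b0 * N n / M)) := by
      rw [← Real.exp_add]
      apply Real.one_le_exp
      have : b0 * N n / M ≤ b0 := by
        rw [div_le_iff₀ hM]
        exact mul_le_mul_of_nonneg_left hn.1 b0_pos.le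
      linarith
    nlinarith [sq_nonneg ‖∑ k ∈ 𝒦, c k * ch k n‖]
  refine h1.trans ?_
  rw [← Finset.mul_sum]
  have h3 := (summable_sq hM 𝒦 c).sum_le_tsum (Hn M) fun n _ => by positivity
  gcongr

/-- geometric sum over the levels -/
theorem geom_levels {ε X : ℝ} (hε : 0 < ε) (hX : 0 < X) (J : ℕ) :
    ∑ j ∈ Finset.range J, (X / 2 ^ j) ^ ε ≤ X ^ ε * (1 - (2 : ℝ) ^ (-ε))⁻¹ := by
  have h2 : (2 : ℝ) ^ (-ε) < 1 := Real.rpow_lt_one_of_one_lt_of_neg (by norm_num) (by linarith)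
  have h1 : ∀ j ∈ Finset.range J, (X / 2 ^ j) ^ ε = X ^ ε * ((2 : ℝ) ^ (-ε)) ^ j := by
    intro j _
    rw [Real.div_rpow hX.le (by positivity), div_eq_mul_inv, ← Real.rpow_natCast 2 j,
      ← Real.rpow_mul (by norm_num), ← Real.rpow_neg (by norm_num), ← Real.rpow_natCast,
      ← Real.rpow_mul (by norm_num)]
    congr 2; ring
  rw [Finset.sum_congr rfl h1, ← Finset.mul_sum]
  gcongr
  have h3 := (summable_geometric_of_lt_one (by positivity) h2).sum_le_tsum (Finset.range J)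
    fun _ _ => by positivity
  rwa [tsum_geometric_of_lt_one (by positivity) h2] at h3

/-- the coefficients of the dual form -/
noncomputable def yc (c : O → ℂ) (δ d k : O) : ℂ :=
  conj (c k) * conj (ch (k / δ) d) * gam (k / δ) / (Real.sqrt (N (k / δ)) : ℝ)

/-- the dual form -/
noncomputable def Gd (q : ℝ) (c : O → ℂ) (δ d m : O) (t : O → O) (S : Finset O) (h : O) : ℂ :=
  ∑ k ∈ S, ∑ l ∈ S, (yc c δ d k * ch (m * t k) h) * conj (yc c δ d l *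
    ch (m * t l) h) * ((Real.exp (-(b0 * q * N h / (N (m * t k) * N (m * t l)))) : ℝ) : ℂ)

theorem Gd_eq {q : ℝ} {c : O → ℂ} {δ d m : O} {t : O → O} {S : Finset O}
    (hmt : ∀ k ∈ S, m * t k = k / δ) (h : O) :
    Gd q c δ d m t S h =
      ∑ k ∈ S, ∑ l ∈ S, yc c δ d k * conj (yc c δ d l) * dterm q (k / δ) (l / δ) h := by
  rw [Gd]
  refine Finset.sum_congr rfl fun k hk => Finset.sum_congr rfl fun l hl => ?_
  rw [hmt k hk, hmt l hl, dterm, map_mul]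
  ring

theorem Gd_summable {q : ℝ} (hq : 0 < q) {c : O → ℂ} {δ d m : O} {t : O → O} {S : Finset O}
    (hmt : ∀ k ∈ S, m * t k = k / δ) (h0 : ∀ k ∈ S, k / δ ≠ 0) :
    Summable (Gd q c δ d m t S) := by
  rw [show Gd q c δ d m t S = fun h => ∑ k ∈ S, ∑ l ∈ S, yc c δ d k * conj (yc c δ d l) *
    dterm q (k / δ) (l / δ) h from funext (Gd_eq hmt)]
  exact summable_sum fun k hk => summable_sum fun l hl =>
    (summable_dterm hq (h0 k hk) (h0 l hl)).mul_left _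

theorem oterm_sum_eq {M q : ℝ} (hq : 0 < q) {c : O → ℂ} {δ d m : O} {t : O → O} {S : Finset O}
    (hqM : q = M / N d) (hmt : ∀ k ∈ S, m * t k = k / δ) (h0 : ∀ k ∈ S, k / δ ≠ 0) :
    ∑ k ∈ S, ∑ l ∈ S, conj (c k) * c l * oterm M d (k / δ) (l / δ) =
      mob d * (q * ∑' h : O, if h = 0 then 0 else Gd q c δ d m t S h) := by
  have hds0 : ∀ k ∈ S, ∀ l ∈ S,
      Summable fun h : O => if h = 0 then (0 : ℂ) else dterm q (k / δ) (l / δ) h := by
    intro k hk l hl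
    refine Summable.of_norm_bounded (summable_dterm hq (h0 k hk) (h0 l hl)).norm fun h => ?_
    split_ifs
    · rw [norm_zero]; exact norm_nonneg _
    · exact le_rfl
  have e1 : ∀ h : O, (if h = 0 then 0 else Gd q c δ d m t S h) =
      ∑ k ∈ S, ∑ l ∈ S, yc c δ d k * conj (yc c δ d l) *
        (if h = 0 then 0 else dterm q (k / δ) (l / δ) h) := by
    intro h
    split_ifs
    · simp
    · exact Gd_eq hmt h
  rw [tsum_congr e1, Summable.tsum_finsetSum fun k hk => summable_sum fun l hl =>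
    (hds0 k hk l hl).mul_left _, Finset.mul_sum, Finset.mul_sum]
  refine Finset.sum_congr rfl fun k hk => ?_
  rw [Summable.tsum_finsetSum fun l hl => (hds0 k hk l hl).mul_left _, Finset.mul_sum,
    Finset.mul_sum]
  refine Finset.sum_congr rfl fun l hl => ?_
  rw [tsum_mul_left]
  have e2 : (∑' h : O, if h = 0 then 0 else dterm q (k / δ) (l / δ) h) =
    dsum q (k / δ) (l / δ) := rfl
  rw [e2, oterm, ← hqM, yc, yc]
  simp only [map_div₀, map_mul, Complex.conj_conj, Complex.conj_ofReal, Complex.ofReal_div,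
    Complex.ofReal_mul]
  ring

/-- change of variables `k = e s` -/
theorem sum_dvd_eq {K : ℝ} {𝒦 : Finset O} (h𝒦 : 𝒦 ⊆ SF K) {e : O} (he : Prim e)
    (x : O → ℂ) (h : O) :
    ∑ k ∈ 𝒦.filter (fun k => e ∣ k), x k * ch (k / e) h =
      ∑ s ∈ (SF K).filter (fun s => e * s ∈ 𝒦), x (e * s) * ch s h := by
  have key : ∀ s, e * s ∈ 𝒦 → s ∈ SF K := by
    intro s hs
    have h1 := mem_SF.1 (h𝒦 hs)
    refine mem_SF.2 ⟨?_, he.of_mul_left h1.2.1, h1.2.2.squarefree_of_dvd (dvd_mul_left _ _)⟩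
    refine le_trans ?_ h1.1
    exact_mod_cast Nat.le_of_dvd (h1.2.1.N_pos) (N_dvd_N (dvd_mul_left s e))
  refine Finset.sum_nbij' (fun k => k / e) (fun s => e * s) ?_ ?_ ?_ ?_ ?_
  · intro k hk
    rw [Finset.mem_filter] at hk
    obtain ⟨hk, s, rfl⟩ := hk
    rw [mul_div_cancel_left₀ _ he.ne_zero, Finset.mem_filter]
    exact ⟨key s hk, hk⟩
  · intro s hs
    rw [Finset.mem_filter] at hs
    rw [Finset.mem_filter]
    exact ⟨hs.2, dvd_mul_right _ _⟩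
  · intro k hk
    rw [Finset.mem_filter] at hk
    obtain ⟨hk, s, rfl⟩ := hk
    rw [mul_div_cancel_left₀ _ he.ne_zero]
  · intro s _
    rw [mul_div_cancel_left₀ _ he.ne_zero]
  · intro k hk
    rw [Finset.mem_filter] at hk
    obtain ⟨hk, s, rfl⟩ := hk
    rw [mul_div_cancel_left₀ _ he.ne_zero]

theorem S_facts {K : ℝ} {𝒦 : Finset O} {c : O → ℂ} {δ d m : O} (h𝒦 : 𝒦 ⊆ SF K)
    (hK2 : ∀ k ∈ 𝒦, K < 2 * N k) (hδ : Prim δ) (he : Prim (δ * m)) :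
    ∀ k ∈ 𝒦.filter (fun k => δ * m ∣ k), m * (k / (δ * m)) = k / δ ∧ k / δ ≠ 0 ∧
      (k / (δ * m) ≠ 0 ∧ K / N δ / 2 < N (m * (k / (δ * m))) ∧
        (N (m * (k / (δ * m))) : ℝ) ≤ K / N δ ∧
        ‖yc c δ d k‖ ≤ ‖c k‖ / Real.sqrt (N (m * (k / (δ * m))))) := by
  intro k hk
  rw [Finset.mem_filter] at hk
  obtain ⟨h7, s, rfl⟩ := hk
  have hk2 := mem_SF.1 (h𝒦 h7)
  have hk3 := hK2 _ h7
  have h8 : Prim (m * s) := hδ.of_mul_left (by rw [← mul_assoc]; exact hk2.2.1)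
  have h9 : Squarefree (m * s) := hk2.2.2.squarefree_of_dvd ⟨δ, by ring⟩
  have h4 : Prim s := he.of_mul_left hk2.2.1
  have pδ : (1 : ℝ) ≤ N δ := by exact_mod_cast hδ.N_pos
  have e1 : δ * m * s / (δ * m) = s := mul_div_cancel_left₀ _ he.ne_zero
  have e2 : δ * m * s / δ = m * s := by rw [mul_assoc, mul_div_cancel_left₀ _ hδ.ne_zero]
  have hN : (N (δ * m * s) : ℝ) = N δ * N (m * s) := by
    rw [mul_assoc, N_mul]; push_cast; ring
  rw [hN] at hk2 hk3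
  rw [yc, e1, e2]
  refine ⟨rfl, h8.ne_zero, h4.ne_zero, ?_, ?_, ?_⟩
  · rw [div_div, div_lt_iff₀ (by positivity)]
    linarith
  · rw [le_div_iff₀ (by positivity)]
    linarith [hk2.1]
  · rw [norm_div, norm_mul, norm_mul, Complex.norm_conj, Complex.norm_conj,
      norm_gam h8 h9, mul_one, Complex.norm_real, Real.norm_of_nonneg (Real.sqrt_nonneg _)]
    gcongr
    exact mul_le_of_le_one_right (norm_nonneg _) (norm_sym_le _ _)

/-- bound for one `(e, δ, d)` -/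
theorem oterm_bound {ε A : ℝ} (hε : 0 < ε) (hε1 : ε ≤ 1) (hA : 0 ≤ A) : ∃ C : ℝ, 0 < C ∧
    ∀ (K M : ℝ) (𝒦 : Finset O) (c : O → ℂ) (e δ d : O) (Bd : ℝ), 1 ≤ K → 1 ≤ M → 𝒦 ⊆ SF K →
      (∀ k ∈ 𝒦, K < 2 * N k) → 0 ≤ Bd → Prim e → δ ∈ D e → d ∈ D δ →
      (∀ j : ℕ, ∀ x : O → ℂ, (∀ s, e * s ∈ 𝒦 → ‖x s‖ ≤ ‖c (e * s)‖) →
        (M * N δ / (K * N d)) * (min 1 (N d * K ^ 2 / (N δ ^ 2 * M * 2 ^ j))) ^ A *
        ∑ h ∈ Hn ((2 : ℝ) ^ j), ‖∑ s ∈ (SF K).filter (fun s => e * s ∈ 𝒦), x s * ch s h‖ ^ 2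
          ≤ Bd) →
      ‖∑ k ∈ 𝒦.filter (fun k => e ∣ k), ∑ l ∈ 𝒦.filter (fun l => e ∣ l),
        conj (c k) * c l * oterm M d (k / δ) (l / δ)‖ ≤ C * (K ^ (2 * ε) * Bd) := by
  obtain ⟨C, hC, hlev⟩ := level_geom hε hε1 hA
  have h2ε : (2 : ℝ) ^ (-ε) < 1 := Real.rpow_lt_one_of_one_lt_of_neg (by norm_num) (by linarith)
  have h2ε' : 0 < 1 - (2 : ℝ) ^ (-ε) := by linarith
  refine ⟨C * (1 - (2 : ℝ) ^ (-ε))⁻¹, by positivity, ?_⟩
  intro K M 𝒦 c e δ d Bd hK hM h𝒦 hK2 hBd he hδe hdδ hH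
  rw [mem_D he.ne_zero] at hδe
  obtain ⟨hδ, m, rfl⟩ := hδe
  rw [mem_D hδ.ne_zero] at hdδ
  obtain ⟨hd, hdδ⟩ := hdδ
  have hm : Prim m := hδ.of_mul_left he
  have pδ : (1 : ℝ) ≤ N δ := by exact_mod_cast hδ.N_pos
  have pd : (1 : ℝ) ≤ N d := by exact_mod_cast hd.N_pos
  have pdδ : (N d : ℝ) ≤ N δ := by
    exact_mod_cast Nat.le_of_dvd hδ.N_pos (N_dvd_N hdδ)
  have hfacts := S_facts (c := c) (d := d) h𝒦 hK2 hδ he
  have hq0 : 0 < M / N d := by positivity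
  have hR0 : 0 < K / N δ := by positivity
  have hqR : (M / N d) / (K / N δ) = M * N δ / (K * N d) := by
    field_simp
  have hR2 : ∀ j : ℕ, (K / N δ) ^ 2 / ((M / N d) * 2 ^ j) =
      N d * K ^ 2 / (N δ ^ 2 * M * 2 ^ j) := by
    intro j; field_simp
  -- the level hypothesis
  have hH' : ∀ j : ℕ, ∀ x : O → ℂ, (∀ k ∈ 𝒦.filter (fun k => δ * m ∣ k), ‖x k‖ ≤ ‖c k‖) →
      ((M / N d) / (K / N δ)) * (min 1 ((K / N δ) ^ 2 / ((M / N d) * 2 ^ j))) ^ A *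
        ∑ h ∈ Hn ((2 : ℝ) ^ j), ‖∑ k ∈ 𝒦.filter (fun k => δ * m ∣ k),
          x k * ch (k / (δ * m)) h‖ ^ 2 ≤ Bd := by
    intro j x hx
    have h1 := hH j (fun s => x (δ * m * s)) (fun s hs => hx _ (by
      rw [Finset.mem_filter]; exact ⟨hs, dvd_mul_right _ _⟩))
    rw [hqR, hR2]
    refine le_trans (le_of_eq ?_) h1
    congr 1
    refine Finset.sum_congr rfl fun h _ => ?_
    rw [sum_dvd_eq h𝒦 he]
  rw [oterm_sum_eq hq0 rfl (fun k hk => (hfacts k hk).1) (fun k hk => (hfacts k hk).2.1),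
    norm_mul, norm_mob, one_mul, norm_mul, Complex.norm_real, Real.norm_of_nonneg hq0.le]
  have hfin := norm_tsum_le_levels (Gd_summable (c := c) (d := d) hq0
    (fun k hk => (hfacts k hk).1) (fun k hk => (hfacts k hk).2.1))
    (w := fun j => C * (((K / N δ) ^ 2 / ((M / N d) * 2 ^ j)) ^ ε * Bd) / (M / N d))
    (S := C * (1 - (2 : ℝ) ^ (-ε))⁻¹ * (K ^ (2 * ε) * Bd) / (M / N d)) ?_ ?_
  · rw [le_div_iff₀ hq0, mul_comm] at hfin
    exact hfin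
  · intro j
    rw [le_div_iff₀ hq0, mul_comm]
    exact hlev _ _ c m _ (M / N d) (K / N δ) Bd j hq0 hR0 hBd hm.ne_zero
      (fun k hk => (hfacts k hk).2.2) (hH' j)
  · intro J
    have e1 : ∑ j ∈ Finset.range J, C * (((K / N δ) ^ 2 / ((M / N d) * 2 ^ j)) ^ ε * Bd) /
          (M / N d) =
        C * Bd / (M / N d) * ∑ j ∈ Finset.range J, (((K / N δ) ^ 2 / (M / N d)) / 2 ^ j) ^ ε := by
      rw [Finset.mul_sum]
      refine Finset.sum_congr rfl fun j _ => ?_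
      rw [← div_div ((K / (N δ : ℝ)) ^ 2)]; ring
    rw [e1]
    have e2 := geom_levels hε (X := (K / N δ) ^ 2 / (M / N d)) (by positivity) J
    have e3 : ((K / N δ) ^ 2 / (M / N d)) ^ ε ≤ K ^ (2 * ε) := by
      have e4 : (K / N δ) ^ 2 / (M / N d) ≤ K ^ 2 := by
        rw [div_pow, div_div, div_le_iff₀ (by positivity)]
        have : (1 : ℝ) ≤ N δ ^ 2 * (M / N d) := by
          rw [mul_div_assoc', le_div_iff₀ (by positivity), one_mul]
          nlinarith [mul_le_mul pδ hM (by norm_num) (by linarith)]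
        nlinarith [sq_nonneg K]
      calc ((K / N δ) ^ 2 / (M / N d)) ^ ε ≤ (K ^ 2) ^ ε :=
            Real.rpow_le_rpow (by positivity) e4 hε.le
        _ = K ^ (2 * ε) := by
          rw [Real.rpow_mul (by linarith)]; congr 1; exact_mod_cast (Real.rpow_natCast K 2).symm
    calc C * Bd / (M / N d) * ∑ j ∈ Finset.range J, (((K / N δ) ^ 2 / (M / N d)) / 2 ^ j) ^ ε
        ≤ C * Bd / (M / N d) * (((K / N δ) ^ 2 / (M / N d)) ^ ε * (1 - (2 : ℝ) ^ (-ε))⁻¹) := by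
          gcongr
      _ ≤ C * Bd / (M / N d) * (K ^ (2 * ε) * (1 - (2 : ℝ) ^ (-ε))⁻¹) := by gcongr
      _ = _ := by ring

theorem total_eq {K M : ℝ} (hM : 0 < M) {𝒦 : Finset O} (h𝒦 : 𝒦 ⊆ SF K) (c : O → ℂ) :
    ∃ z : O → O → ℂ, (∀ k ∈ 𝒦, ∀ l ∈ 𝒦, ‖z k l‖ ≤ (if k = l then M * (D k).card else 0)) ∧
      ((∑' n : O, ‖∑ k ∈ 𝒦, c k * ch k n‖ ^ 2 * Real.exp (-(b0 * N n / M)) : ℝ) : ℂ) =
      (∑ k ∈ 𝒦, ∑ l ∈ 𝒦, conj (c k) * c l * z k l) +
      ∑ e ∈ SF K, ∑ δ ∈ D e, ∑ d ∈ D δ, mob (e / δ) *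
        ∑ k ∈ 𝒦.filter (fun k => e ∣ k), ∑ l ∈ 𝒦.filter (fun l => e ∣ l),
          conj (c k) * c l * oterm M d (k / δ) (l / δ) := by
  classical
  have h1 : ∀ k l : O, ∃ z : ℂ, k ∈ 𝒦 → l ∈ 𝒦 →
      (‖z‖ ≤ (if k = l then M * (D k).card else 0) ∧
      psum M k l = z + ∑ e ∈ SF K, (if e ∣ k ∧ e ∣ l then
        ∑ δ ∈ D e, ∑ d ∈ D δ, mob (e / δ) * oterm M d (k / δ) (l / δ) else 0)) := by
    intro k l
    by_cases hk : k ∈ 𝒦
    · by_cases hl : l ∈ 𝒦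
      · obtain ⟨z, hz⟩ := psum_decomp hM (h𝒦 hk) (h𝒦 hl)
        exact ⟨z, fun _ _ => hz⟩
      · exact ⟨0, fun _ h => absurd h hl⟩
    · exact ⟨0, fun h => absurd h hk⟩
  choose z hz using h1
  refine ⟨z, fun k hk l hl => (hz k l hk hl).1, ?_⟩
  rw [tsum_sq_eq hM]
  have h2 : ∑ k ∈ 𝒦, ∑ l ∈ 𝒦, conj (c k) * c l * psum M k l =
      (∑ k ∈ 𝒦, ∑ l ∈ 𝒦, conj (c k) * c l * z k l) +
      ∑ k ∈ 𝒦, ∑ l ∈ 𝒦, ∑ e ∈ SF K, (if e ∣ k ∧ e ∣ l then conj (c k) * c l *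
        ∑ δ ∈ D e, ∑ d ∈ D δ, mob (e / δ) * oterm M d (k / δ) (l / δ) else 0) := by
    rw [← Finset.sum_add_distrib]
    refine Finset.sum_congr rfl fun k hk => ?_
    rw [← Finset.sum_add_distrib]
    refine Finset.sum_congr rfl fun l hl => ?_
    rw [(hz k l hk hl).2, mul_add, Finset.mul_sum]
    congr 1
    refine Finset.sum_congr rfl fun e _ => ?_
    split_ifs
    · rfl
    · rw [mul_zero]
  rw [h2]
  congr 1
  rw [sum_pair_filter]
  refine Finset.sum_congr rfl fun e _ => ?_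
  have h3 : ∑ k ∈ 𝒦.filter (fun k => e ∣ k), ∑ l ∈ 𝒦.filter (fun l => e ∣ l),
      conj (c k) * c l * ∑ δ ∈ D e, ∑ d ∈ D δ, mob (e / δ) * oterm M d (k / δ) (l / δ) =
      ∑ k ∈ 𝒦.filter (fun k => e ∣ k), ∑ l ∈ 𝒦.filter (fun l => e ∣ l), ∑ δ ∈ D e, ∑ d ∈ D δ,
        mob (e / δ) * (conj (c k) * c l * oterm M d (k / δ) (l / δ)) := by
    refine Finset.sum_congr rfl fun k _ => Finset.sum_congr rfl fun l _ => ?_
    rw [Finset.mul_sum]
    refine Finset.sum_congr rfl fun δ _ => ?_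
    rw [Finset.mul_sum]
    refine Finset.sum_congr rfl fun d _ => ?_
    ring
  rw [h3, sum4_comm]
  refine Finset.sum_congr rfl fun δ _ => Finset.sum_congr rfl fun d _ => ?_
  rw [Finset.mul_sum]
  refine Finset.sum_congr rfl fun k _ => ?_
  rw [Finset.mul_sum]

/-- **The Poisson inequality (P*)** (Heath-Brown's duality step for the cubic large sieve), with
arbitrary coefficients and an abstract bound `Bd` for the dual sums. -/
theorem poisson_ineq {ε A : ℝ} (hε : 0 < ε) (hA : 0 ≤ A) : ∃ C : ℝ, 0 < C ∧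
    ∀ (K M : ℝ) (𝒦 : Finset O) (c : O → ℂ) (Bd : O → ℝ), 1 ≤ K → 1 ≤ M → 𝒦 ⊆ SF K →
      (∀ k ∈ 𝒦, K < 2 * N k) → (∀ e, 0 ≤ Bd e) →
      (∀ e ∈ SF K, ∀ δ ∈ D e, ∀ d ∈ D δ, ∀ j : ℕ, ∀ x : O → ℂ,
        (∀ s, e * s ∈ 𝒦 → ‖x s‖ ≤ ‖c (e * s)‖) →
        (M * N δ / (K * N d)) * (min 1 (N d * K ^ 2 / (N δ ^ 2 * M * 2 ^ j))) ^ A *
        ∑ h ∈ Hn ((2 : ℝ) ^ j), ‖∑ s ∈ (SF K).filter (fun s => e * s ∈ 𝒦), x s * ch s h‖ ^ 2
          ≤ Bd e) →
      ∑ n ∈ Hn M, ‖∑ k ∈ 𝒦, c k * ch k n‖ ^ 2 ≤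
        C * K ^ ε * (M * ∑ k ∈ 𝒦, ‖c k‖ ^ 2 + ∑ e ∈ SF K, Bd e) := by
  set η : ℝ := min (ε / 4) 1 with hη
  have hη0 : 0 < η := lt_min (by linarith) one_pos
  have hη1 : η ≤ 1 := min_le_right _ _
  have hη4 : 4 * η ≤ ε := by have := min_le_left (ε / 4) 1; linarith
  obtain ⟨C1, hC1, h1⟩ := oterm_bound hη0 hη1 hA
  obtain ⟨C2, hC2, h2⟩ := card_D_le hη0
  refine ⟨Real.exp b0 * (C2 + C1 * C2 ^ 2), by positivity, ?_⟩
  intro K M 𝒦 c Bd hK hM h𝒦 hK2 hBd hH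
  have hM0 : 0 < M := by linarith
  have hK0 : 0 < K := by linarith
  obtain ⟨z, hz, htot⟩ := total_eq hM0 h𝒦 c
  set T : ℝ := ∑' n : O, ‖∑ k ∈ 𝒦, c k * ch k n‖ ^ 2 * Real.exp (-(b0 * N n / M)) with hT
  have hT0 : 0 ≤ T := tsum_nonneg fun n => by positivity
  have hcard : ∀ e ∈ SF K, ((D e).card : ℝ) ≤ C2 * K ^ η := by
    intro e he
    rw [mem_SF] at he
    refine (h2 e he.2.1 he.2.2).trans ?_
    gcongr
    exact he.1
  -- first part
  have hA1 : ‖∑ k ∈ 𝒦, ∑ l ∈ 𝒦, conj (c k) * c l * z k l‖ ≤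
      C2 * K ^ η * (M * ∑ k ∈ 𝒦, ‖c k‖ ^ 2) := by
    calc ‖∑ k ∈ 𝒦, ∑ l ∈ 𝒦, conj (c k) * c l * z k l‖
        ≤ ∑ k ∈ 𝒦, ∑ l ∈ 𝒦, ‖conj (c k) * c l * z k l‖ :=
          (norm_sum_le _ _).trans (Finset.sum_le_sum fun k _ => norm_sum_le _ _)
      _ ≤ ∑ k ∈ 𝒦, ∑ l ∈ 𝒦, (if k = l then ‖c k‖ ^ 2 * (M * (D k).card) else 0) := by
          refine Finset.sum_le_sum fun k hk => Finset.sum_le_sum fun l hl => ?_
          rw [norm_mul, norm_mul, Complex.norm_conj]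
          have h3 := hz k hk l hl
          split_ifs at h3 ⊢ with hkl
          · subst hkl
            rw [← sq]
            gcongr
          · have : ‖z k l‖ = 0 := le_antisymm h3 (norm_nonneg _)
            rw [this, mul_zero]
      _ = ∑ k ∈ 𝒦, ‖c k‖ ^ 2 * (M * (D k).card) := by
          refine Finset.sum_congr rfl fun k hk => ?_
          rw [Finset.sum_ite_eq, if_pos hk]
      _ ≤ ∑ k ∈ 𝒦, ‖c k‖ ^ 2 * (M * (C2 * K ^ η)) := by
          refine Finset.sum_le_sum fun k hk => ?_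
          have := hcard k (h𝒦 hk)
          gcongr
      _ = C2 * K ^ η * (M * ∑ k ∈ 𝒦, ‖c k‖ ^ 2) := by
          rw [← Finset.sum_mul]; ring
  -- second part
  have hA2 : ‖∑ e ∈ SF K, ∑ δ ∈ D e, ∑ d ∈ D δ, mob (e / δ) *
        ∑ k ∈ 𝒦.filter (fun k => e ∣ k), ∑ l ∈ 𝒦.filter (fun l => e ∣ l),
          conj (c k) * c l * oterm M d (k / δ) (l / δ)‖ ≤
      C1 * C2 ^ 2 * K ^ (4 * η) * ∑ e ∈ SF K, Bd e := by
    calc _ ≤ ∑ e ∈ SF K, ∑ δ ∈ D e, ∑ d ∈ D δ, C1 * (K ^ (2 * η) * Bd e) := by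
          refine (norm_sum_le _ _).trans (Finset.sum_le_sum fun e he => ?_)
          refine (norm_sum_le _ _).trans (Finset.sum_le_sum fun δ hδ => ?_)
          refine (norm_sum_le _ _).trans (Finset.sum_le_sum fun d hd => ?_)
          rw [norm_mul, norm_mob, one_mul]
          exact h1 K M 𝒦 c e δ d (Bd e) hK hM h𝒦 hK2 (hBd e) (mem_SF.1 he).2.1 hδ hd
            (fun j x hx => hH e he δ hδ d hd j x hx)
      _ ≤ ∑ e ∈ SF K, C1 * C2 ^ 2 * K ^ (4 * η) * Bd e := by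
          refine Finset.sum_le_sum fun e he => ?_
          have he' := (mem_SF.1 he).2.1
          have hnn : 0 ≤ C1 * (K ^ (2 * η) * Bd e) := by
            have := hBd e; positivity
          calc ∑ δ ∈ D e, ∑ d ∈ D δ, C1 * (K ^ (2 * η) * Bd e)
              ≤ ∑ δ ∈ D e, (D e).card * (C1 * (K ^ (2 * η) * Bd e)) := by
                refine Finset.sum_le_sum fun δ hδ => ?_
                rw [Finset.sum_const, nsmul_eq_mul]
                have hsub : D δ ⊆ D e := by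
                  rw [mem_D he'.ne_zero] at hδ
                  intro d hd
                  rw [mem_D hδ.1.ne_zero] at hd
                  rw [mem_D he'.ne_zero]
                  exact ⟨hd.1, hd.2.trans hδ.2⟩
                have := Finset.card_le_card hsub
                gcongr
            _ = ((D e).card : ℝ) ^ 2 * (C1 * (K ^ (2 * η) * Bd e)) := by
                rw [Finset.sum_const, nsmul_eq_mul]; ring
            _ ≤ (C2 * K ^ η) ^ 2 * (C1 * (K ^ (2 * η) * Bd e)) := by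
                have := hcard e he
                gcongr
            _ = C1 * C2 ^ 2 * K ^ (4 * η) * Bd e := by
                have e1 : K ^ (4 * η) = (K ^ η) ^ 2 * K ^ (2 * η) := by
                  rw [← Real.rpow_natCast (K ^ η) 2, ← Real.rpow_mul hK0.le,
                    ← Real.rpow_add hK0]
                  congr 1; push_cast; ring
                rw [e1]; ring
      _ = _ := by rw [Finset.mul_sum]
  have hTle : T ≤ C2 * K ^ η * (M * ∑ k ∈ 𝒦, ‖c k‖ ^ 2) +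
      C1 * C2 ^ 2 * K ^ (4 * η) * ∑ e ∈ SF K, Bd e := by
    have : T = ‖(T : ℂ)‖ := by rw [Complex.norm_real, Real.norm_of_nonneg hT0]
    rw [this, htot]
    exact (norm_add_le _ _).trans (add_le_add hA1 hA2)
  have hs1 : 0 ≤ M * ∑ k ∈ 𝒦, ‖c k‖ ^ 2 := by positivity
  have hs2 : 0 ≤ ∑ e ∈ SF K, Bd e := Finset.sum_nonneg fun e _ => hBd e
  have hK3 : K ^ η ≤ K ^ ε := Real.rpow_le_rpow_of_exponent_le hK (by linarith)
  have hK4 : K ^ (4 * η) ≤ K ^ ε := Real.rpow_le_rpow_of_exponent_le hK hη4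
  calc ∑ n ∈ Hn M, ‖∑ k ∈ 𝒦, c k * ch k n‖ ^ 2 ≤ Real.exp b0 * T := sum_le_exp_tsum hM0 𝒦 c
    _ ≤ Real.exp b0 * (C2 * K ^ η * (M * ∑ k ∈ 𝒦, ‖c k‖ ^ 2) +
      C1 * C2 ^ 2 * K ^ (4 * η) * ∑ e ∈ SF K, Bd e) := by gcongr
    _ ≤ Real.exp b0 * (C2 * K ^ ε * (M * ∑ k ∈ 𝒦, ‖c k‖ ^ 2) +
      C1 * C2 ^ 2 * K ^ ε * ∑ e ∈ SF K, Bd e) := by gcongr
    _ ≤ Real.exp b0 * ((C2 + C1 * C2 ^ 2) * K ^ ε * (M * ∑ k ∈ 𝒦, ‖c k‖ ^ 2) +
      (C2 + C1 * C2 ^ 2) * K ^ ε * ∑ e ∈ SF K, Bd e) := by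
        gcongr
        · have : 0 ≤ C1 * C2 ^ 2 := by positivity
          linarith
        · linarith
    _ = _ := by ring

end Vale.Agent.P006.PS
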