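import Mathlib.Analysis.Fourier.Inversion
import Mathlib.Analysis.Fourier.FourierTransformDeriv
import Mathlib.Analysis.SpecialFunctions.ImproperIntegrals
import Mathlib.Analysis.SpecialFunctions.Pow.Real

/-!
P006, block PS: separation of variables in `exp (-x)`:
`exp (-x) = ∫ ρ(t) x^(-σ + 2π i t) dt` with `ρ` continuous and `≪ 1/(1+t²)`.
-/

namespace Vale.Agent.P006.PS

open MeasureTheory Real Complex FourierTransform

/-- Fourier inversion for twice differentiable functions with two integrable derivatives -/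
theorem fourier_sep {f f1 f2 : ℝ → ℂ} (h1 : ∀ v, HasDerivAt f (f1 v) v)
    (h2 : ∀ v, HasDerivAt f1 (f2 v) v) (i0 : Integrable f) (i1 : Integrable f1)
    (i2 : Integrable f2) :
    ∃ (ρ : ℝ → ℂ) (C : ℝ), Continuous ρ ∧ (∀ t, ‖ρ t‖ ≤ C * (1 + t ^ 2)⁻¹) ∧
      ∀ v : ℝ, f v = ∫ t, ρ t * Complex.exp (2 * π * v * t * I) := by
  have d1 : deriv f = f1 := funext fun v => (h1 v).deriv
  have d2 : deriv f1 = f2 := funext fun v => (h2 v).deriv
  have e1 : 𝓕 f1 = fun x : ℝ => (2 * π * I * x) • (𝓕 f x) := by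
    rw [← d1]
    exact Real.fourier_deriv i0 (fun v => (h1 v).differentiableAt) (by rw [d1]; exact i1)
  have e2 : 𝓕 f2 = fun x : ℝ => (2 * π * I * x) • (𝓕 f1 x) := by
    rw [← d2]
    exact Real.fourier_deriv i1 (fun v => (h2 v).differentiableAt) (by rw [d2]; exact i2)
  have b0 : ∀ t, ‖𝓕 f t‖ ≤ ∫ v, ‖f v‖ := fun t => by
    rw [Real.fourier_real_eq]
    refine (norm_integral_le_integral_norm _).trans (le_of_eq ?_)
    congr 1; ext v; rw [Circle.norm_smul]
  have b2 : ∀ t, ‖𝓕 f2 t‖ ≤ ∫ v, ‖f2 v‖ := fun t => by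
    rw [Real.fourier_real_eq]
    refine (norm_integral_le_integral_norm _).trans (le_of_eq ?_)
    congr 1; ext v; rw [Circle.norm_smul]
  have hfc : Continuous f := continuous_iff_continuousAt.2 fun v => (h1 v).continuousAt
  have hc : Continuous (𝓕 f) := by
    have := VectorFourier.fourierIntegral_continuous (V := ℝ) (W := ℝ) (E := ℂ)
      (e := Real.fourierChar) (μ := volume) (L := innerₗ ℝ) Real.continuous_fourierChar
      (by exact continuous_inner) i0
    exact this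
  set C : ℝ := (∫ v, ‖f v‖) + ∫ v, ‖f2 v‖ with hC
  have hC0 : 0 ≤ C := add_nonneg (integral_nonneg fun _ => norm_nonneg _)
    (integral_nonneg fun _ => norm_nonneg _)
  have bound : ∀ t, ‖𝓕 f t‖ ≤ C * (1 + t ^ 2)⁻¹ := by
    intro t
    have h3 : ‖𝓕 f2 t‖ = (2 * π) ^ 2 * t ^ 2 * ‖𝓕 f t‖ := by
      rw [e2, e1]
      simp only [norm_smul, norm_mul, Complex.norm_real, Complex.norm_I, Complex.norm_ofNat,
        mul_one, Real.norm_eq_abs, abs_of_pos Real.pi_pos]
      rw [← sq_abs t]; ring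
    have h4 := b2 t
    rw [h3] at h4
    have h5 := b0 t
    rw [← div_eq_mul_inv, le_div_iff₀ (by positivity)]
    have h6 : t ^ 2 * ‖𝓕 f t‖ ≤ (2 * π) ^ 2 * t ^ 2 * ‖𝓕 f t‖ := by
      have h7 : (1 : ℝ) ≤ (2 * π) ^ 2 := by nlinarith [Real.two_le_pi]
      have h8 : 0 ≤ t ^ 2 * ‖𝓕 f t‖ := by positivity
      nlinarith
    rw [hC]
    nlinarith
  have hint : Integrable (𝓕 f) := by
    refine Integrable.mono' (integrable_inv_one_add_sq.const_mul C) hc.aestronglyMeasurable ?_
    exact Filter.Eventually.of_forall bound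
  refine ⟨𝓕 f, C, hc, bound, fun v => ?_⟩
  have h9 := (hfc.fourierInv_fourier_eq i0 hint)
  have h10 : f v = 𝓕⁻ (𝓕 f) v := by rw [h9]
  rw [h10, Real.fourierInv_eq']
  congr 1; ext t
  rw [smul_eq_mul, mul_comm]
  congr 2
  rw [show inner ℝ t v = v * t by simp]
  push_cast; ring

/-- comparison of `exp (a v - e^v)` with `1/(1+v²)` -/
theorem exp_sub_exp_le {a : ℝ} (ha : 0 < a) (v : ℝ) :
    Real.exp (a * v - Real.exp v) ≤
      ((1 + 2 / a ^ 2) + 3 * Real.exp (a ^ 2 / 2)) * (1 + v ^ 2)⁻¹ := by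
  rw [← div_eq_mul_inv, le_div_iff₀ (by positivity)]
  rcases le_total v 0 with hv | hv
  · have h1 : Real.exp (a * v - Real.exp v) ≤ Real.exp (a * v) :=
      Real.exp_le_exp.2 (by linarith [Real.exp_pos v])
    have h2 : 1 + (-(a * v)) + (-(a * v)) ^ 2 / 2 ≤ Real.exp (-(a * v)) :=
      Real.quadratic_le_exp_of_nonneg (by nlinarith)
    have h3 : 1 + v ^ 2 ≤ (1 + 2 / a ^ 2) * Real.exp (-(a * v)) := by
      have h4 : 0 ≤ -(a * v) := by nlinarith
      have h5 : v ^ 2 = (2 / a ^ 2) * ((-(a * v)) ^ 2 / 2) := by field_simp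
      have h6 : 0 < 2 / a ^ 2 := by positivity
      have h7 : (1 : ℝ) ≤ Real.exp (-(a * v)) := by nlinarith [sq_nonneg (-(a * v))]
      have h8 : (-(a * v)) ^ 2 / 2 ≤ Real.exp (-(a * v)) := by nlinarith
      calc 1 + v ^ 2 = 1 + (2 / a ^ 2) * ((-(a * v)) ^ 2 / 2) := by rw [← h5]
        _ ≤ Real.exp (-(a * v)) + (2 / a ^ 2) * Real.exp (-(a * v)) :=
            add_le_add h7 (mul_le_mul_of_nonneg_left h8 h6.le)
        _ = _ := by ring
    calc Real.exp (a * v - Real.exp v) * (1 + v ^ 2)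
        ≤ Real.exp (a * v) * ((1 + 2 / a ^ 2) * Real.exp (-(a * v))) := by
          gcongr
      _ = (1 + 2 / a ^ 2) := by
          rw [mul_left_comm, ← Real.exp_add]; simp
      _ ≤ _ := by
          have : 0 < Real.exp (a ^ 2 / 2) := Real.exp_pos _
          linarith
  · have h1 : 1 + v + v ^ 2 / 2 ≤ Real.exp v := Real.quadratic_le_exp_of_nonneg hv
    have h2 : a * v - Real.exp v ≤ a ^ 2 / 2 - v := by nlinarith [sq_nonneg (v - a)]
    have h3 : 1 + v ^ 2 ≤ 3 * Real.exp v := by nlinarith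
    calc Real.exp (a * v - Real.exp v) * (1 + v ^ 2)
        ≤ Real.exp (a ^ 2 / 2 - v) * (3 * Real.exp v) := by gcongr
      _ = 3 * Real.exp (a ^ 2 / 2) := by
          rw [mul_left_comm, ← Real.exp_add]; simp
      _ ≤ _ := by
          have : 0 < 1 + 2 / a ^ 2 := by positivity
          linarith

theorem integrable_exp_sub_exp {a : ℝ} (ha : 0 < a) :
    Integrable (fun v : ℝ => Real.exp (a * v - Real.exp v)) := by
  refine Integrable.mono' (integrable_inv_one_add_sq.const_mul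
    ((1 + 2 / a ^ 2) + 3 * Real.exp (a ^ 2 / 2))) ?_ ?_
  · exact (Continuous.aestronglyMeasurable (by fun_prop))
  · refine Filter.Eventually.of_forall fun v => ?_
    rw [Real.norm_eq_abs, abs_of_pos (Real.exp_pos _)]
    exact exp_sub_exp_le ha v

/-- `exp (-x) = ∫ ρ(t) x^(-σ + 2π i t) dt` -/
theorem mellin_exp {σ : ℝ} (hσ : 0 < σ) :
    ∃ (ρ : ℝ → ℂ) (C : ℝ), 0 < C ∧ Continuous ρ ∧ (∀ t, ‖ρ t‖ ≤ C * (1 + t ^ 2)⁻¹) ∧
      ∀ x : ℝ, 0 < x → (Real.exp (-x) : ℂ) =
        ∫ t : ℝ, ρ t * (x : ℂ) ^ (-(σ : ℂ) + 2 * π * t * I) := by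
  set F : ℝ → ℝ := fun v => Real.exp (σ * v - Real.exp v) with hF
  have hd : ∀ v, HasDerivAt F ((σ - Real.exp v) * F v) v := by
    intro v
    have h1 : HasDerivAt (fun v => σ * v - Real.exp v) (σ - Real.exp v) v := by
      have h := ((hasDerivAt_id v).const_mul σ).sub (Real.hasDerivAt_exp v)
      rw [mul_one] at h
      exact h
    have h2 := h1.exp
    rw [mul_comm] at h2
    exact h2
  have hd1 : ∀ v, HasDerivAt (fun v => (σ - Real.exp v) * F v)
      (((σ - Real.exp v) ^ 2 - Real.exp v) * F v) v := by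
    intro v
    have h1 : HasDerivAt (fun v => σ - Real.exp v) (-Real.exp v) v := by
      have h := (hasDerivAt_const v σ).sub (Real.hasDerivAt_exp v)
      rw [zero_sub] at h
      exact h
    have h2 := h1.mul (hd v)
    refine h2.congr_deriv ?_
    ring
  have hE1 : ∀ v, Real.exp v * F v = Real.exp ((σ + 1) * v - Real.exp v) := by
    intro v; rw [hF, ← Real.exp_add]; congr 1; ring
  have hE2 : ∀ v, Real.exp v ^ 2 * F v = Real.exp ((σ + 2) * v - Real.exp v) := by
    intro v; rw [hF, sq, ← Real.exp_add, ← Real.exp_add]; congr 1; ring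
  have I0 : Integrable F := integrable_exp_sub_exp hσ
  have I1 : Integrable (fun v => Real.exp v * F v) := by
    simp only [hE1]; exact integrable_exp_sub_exp (by linarith)
  have I2 : Integrable (fun v => Real.exp v ^ 2 * F v) := by
    simp only [hE2]; exact integrable_exp_sub_exp (by linarith)
  have J1 : Integrable (fun v => (σ - Real.exp v) * F v) := by
    have := (I0.const_mul σ).sub I1
    refine this.congr (Filter.Eventually.of_forall fun v => ?_)
    simp only [Pi.sub_apply]; ring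
  have J2 : Integrable (fun v => ((σ - Real.exp v) ^ 2 - Real.exp v) * F v) := by
    have := ((I0.const_mul (σ ^ 2)).sub (I1.const_mul (2 * σ + 1))).add I2
    refine this.congr (Filter.Eventually.of_forall fun v => ?_)
    simp only [Pi.sub_apply, Pi.add_apply]; ring
  obtain ⟨ρ, C, hρ, hb, hinv⟩ := fourier_sep (f := fun v => (F v : ℂ))
    (f1 := fun v => (((σ - Real.exp v) * F v : ℝ) : ℂ))
    (f2 := fun v => ((((σ - Real.exp v) ^ 2 - Real.exp v) * F v : ℝ) : ℂ))
    (fun v => (hd v).ofReal_comp) (fun v => (hd1 v).ofReal_comp) I0.ofReal J1.ofReal J2.ofReal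
  refine ⟨ρ, max C 1, by positivity, hρ, fun t => (hb t).trans (by gcongr; exact le_max_left _ _),
    fun x hx => ?_⟩
  have hx' : (x : ℂ) ≠ 0 := by exact_mod_cast hx.ne'
  have h1 := hinv (Real.log x)
  simp only [hF] at h1
  rw [Real.exp_log hx] at h1
  have h2 : (Real.exp (-x) : ℂ) = (x : ℂ) ^ (-(σ : ℂ)) * (Real.exp (σ * Real.log x - x) : ℂ) := by
    rw [Complex.cpow_def_of_ne_zero hx', ← Complex.ofReal_log hx.le]
    rw [show (Complex.exp ((Real.log x : ℂ) * -(σ : ℂ)) : ℂ) =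
      ((Real.exp (Real.log x * -σ) : ℝ) : ℂ) by push_cast; rfl]
    rw [← Complex.ofReal_mul, ← Real.exp_add]
    congr 2; ring
  rw [h2, h1, ← integral_const_mul]
  congr 1; ext t
  rw [mul_left_comm, Complex.cpow_add _ _ hx']
  congr 2
  rw [Complex.cpow_def_of_ne_zero hx', ← Complex.ofReal_log hx.le]
  congr 1
  ring

end Vale.Agent.P006.PS
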