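import Vale.Agent.P006.V1.Theta
import Vale.Agent.P006.CR.GaussSumB
import Vale.Agent.P006.H485.Schwartz

/-!
P006, block LV-B (the Poisson inequality): the exact pair identity with the self-dual Gaussian.
-/

namespace Vale.Agent.P006.PS

open scoped BigOperators Real FourierTransform
open Vale.Agent.P006 Vale.Agent.P006.V1 MeasureTheory

open scoped ComplexConjugate

/-- the self-dual constant -/
noncomputable def b0 : ℝ := 2 * Real.pi / Real.sqrt 3

theorem b0_pos : 0 < b0 := by unfold b0; positivity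

/-- Gaussian of scale `A` -/
noncomputable def gau (A : ℝ) (z : ℂ) : ℂ := (Real.exp (-(b0 * ‖z‖ ^ 2 / A)) : ℝ)

theorem gau_continuous (A : ℝ) : Continuous (gau A) := by
  unfold gau
  fun_prop

theorem gau_dec {A : ℝ} (hA : 0 < A) : PO.Dec (gau A) := by
  set c : ℝ := b0 / A with hc
  have hc0 : 0 < c := div_pos b0_pos hA
  set m : ℝ := min 1 (c ^ 2 / 2) with hm
  have hm0 : 0 < m := lt_min one_pos (by positivity)
  refine ⟨8 / m, fun z => ?_⟩
  set r := ‖z‖ with hr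
  have hr0 : 0 ≤ r := norm_nonneg z
  have e1 : ‖gau A z‖ = Real.exp (-(c * r ^ 2)) := by
    rw [gau, Complex.norm_real, Real.norm_of_nonneg (Real.exp_pos _).le, hc, ← hr]
    congr 1; ring
  rw [e1, Real.exp_neg, ← div_eq_mul_inv, div_le_div_iff₀ (Real.exp_pos _) hm0]
  have h2 : 1 + c * r ^ 2 + (c * r ^ 2) ^ 2 / 2 ≤ Real.exp (c * r ^ 2) :=
    Real.quadratic_le_exp_of_nonneg (by positivity)
  have h3 : m * (1 + r ^ 4) ≤ 1 + (c * r ^ 2) ^ 2 / 2 := by
    have a1 : m ≤ 1 := min_le_left _ _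
    have a2 : m * r ^ 4 ≤ c ^ 2 / 2 * r ^ 4 :=
      mul_le_mul_of_nonneg_right (min_le_right _ _) (by positivity)
    nlinarith
  have h4 : (1 + r) ^ 3 ≤ 8 * (1 + r ^ 4) := by
    nlinarith [sq_nonneg (r ^ 2 - r), sq_nonneg (r - 1), sq_nonneg (r ^ 2 - 1), mul_nonneg hr0 hr0,
      mul_nonneg hr0 (sq_nonneg (r - 1))]
  have h5 : 0 ≤ c * r ^ 2 := by positivity
  calc (1 + r) ^ 3 * m ≤ 8 * (1 + r ^ 4) * m := by gcongr
    _ = 8 * (m * (1 + r ^ 4)) := by ring
    _ ≤ 8 * Real.exp (c * r ^ 2) := by linarith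

theorem FT_gau {A : ℝ} (hA : 0 < A) (y : ℂ) :
    PO.FT (gau A) y = ((Real.sqrt 3 / 2 * A : ℝ) : ℂ) * gau (1 / (3 * A)) y := by
  have hs : (0 : ℝ) < Real.sqrt 3 := by positivity
  have hs3 : Real.sqrt 3 ^ 2 = 3 := Real.sq_sqrt (by norm_num)
  have hb : 0 < (((b0 / A : ℝ) : ℂ)).re := by
    rw [Complex.ofReal_re]; exact div_pos b0_pos hA
  have h := fourier_gaussian_innerProductSpace (V := ℂ) hb (2 * conj y)
  rw [PO.FT_eq_fourier]
  have e1 : gau A = fun v : ℂ => Complex.exp (-((b0 / A : ℝ) : ℂ) * ‖v‖ ^ 2) := by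
    funext v
    rw [gau]
    push_cast
    congr 1; ring
  rw [e1, h, Complex.finrank_real_complex]
  have e2 : ((2 : ℕ) : ℂ) / 2 = 1 := by norm_num
  rw [e2, Complex.cpow_one, gau]
  have hA' : (A : ℂ) ≠ 0 := by exact_mod_cast hA.ne'
  have hs' : ((Real.sqrt 3 : ℝ) : ℂ) ≠ 0 := by exact_mod_cast hs.ne'
  have hpi : ((Real.pi : ℝ) : ℂ) ≠ 0 := by exact_mod_cast Real.pi_ne_zero
  have h1 : (Real.pi : ℂ) / ((b0 / A : ℝ) : ℂ) = ((Real.sqrt 3 / 2 * A : ℝ) : ℂ) := by
    unfold b0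
    push_cast
    field_simp
  rw [h1]
  congr 1
  push_cast
  congr 1
  have h2 : ‖2 * conj y‖ = 2 * ‖y‖ := by
    rw [norm_mul, Complex.norm_conj]; norm_num
  rw [h2]
  unfold b0
  push_cast
  have hs3' : ((Real.sqrt 3 : ℝ) : ℂ) ^ 2 = 3 := by exact_mod_cast hs3
  field_simp
  linear_combination (-(‖y‖ : ℂ) ^ 2) * hs3'

theorem FT_gau_dec {A : ℝ} (hA : 0 < A) : PO.Dec (PO.FT (gau A)) := by
  obtain ⟨C, hC⟩ := gau_dec (A := 1 / (3 * A)) (by positivity)
  refine ⟨Real.sqrt 3 / 2 * A * C, fun z => ?_⟩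
  rw [FT_gau hA, norm_mul, Complex.norm_real, Real.norm_of_nonneg (by positivity)]
  calc (1 + ‖z‖) ^ 3 * (Real.sqrt 3 / 2 * A * ‖gau (1 / (3 * A)) z‖)
      = Real.sqrt 3 / 2 * A * ((1 + ‖z‖) ^ 3 * ‖gau (1 / (3 * A)) z‖) := by ring
    _ ≤ _ := by gcongr; exact hC z

theorem gau_toC (A : ℝ) (x : O) : gau A (toC x) = (Real.exp (-(b0 * N x / A)) : ℝ) := by
  rw [gau, N_eq_sq_norm]

/-! ### Gauss sums -/

theorem rt3_eq : PO.rt3 = sq3 := rfl

/-- representatives of the residue classes -/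
noncomputable def reps (q : O) [NeZero q] : Finset O :=
  (Finset.univ : Finset (Rs q)).image (fun x => Quotient.out x)

theorem isResSys_reps (q : O) [NeZero q] : PO.IsResSys q (reps q) := by
  intro x
  refine ⟨Quotient.out (rs q x), ⟨?_, ?_⟩, ?_⟩
  · unfold reps
    exact Finset.mem_image.2 ⟨rs q x, Finset.mem_univ (α := Rs q) _, rfl⟩
  · rw [← rs_eq, rs_out]
  · rintro y ⟨hy, hd⟩
    unfold reps at hy
    obtain ⟨z, -, rfl⟩ := Finset.mem_image.1 hy
    rw [← rs_eq, rs_out] at hd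
    rw [hd]

theorem sum_reps (q : O) [NeZero q] (f : O → ℂ) : ∑ a ∈ reps q, f a = rsum q f := by
  rw [rsum_eq_sum, reps]
  refine Finset.sum_image ?_
  intro x _ y _ hxy
  simp only at hxy
  rw [← rs_out x, hxy, rs_out]

theorem per_iff {q : O} {ψ : O → ℂ} (h : V1.Per q ψ) : PO.Per q ψ := fun x y =>
  h _ _ ⟨y, by ring⟩

theorem GS_eq (q : O) [NeZero q] (ψ : O → ℂ) (h : O) :
    PO.GS q (reps q) ψ h = rsum q (fun x => ψ x * E (sq3 * q) (x * h)) := by
  rw [PO.GS, sum_reps]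
  refine rsum_congr fun x => ?_
  rw [PO.eT, E, rt3_eq, map_mul, map_mul]
  congr 3
  ring

theorem V1_gs_eq (r k : O) [NeZero r] : V1.gs r k = P006.gs k r := by
  rw [V1.gs, rsum_eq_sum, CRB.gs_eq]
  refine Finset.sum_congr rfl fun x _ => ?_
  have h1 : ch r (Quotient.out x) = chi r x := by
    conv_rhs => rw [← rs_out x]
    rw [chi_rs]; rfl
  rw [h1, E_eq_psi, map_mul, rs_out, mul_comm x]

theorem V1_gsc_eq (r k : O) [NeZero r] : gsc r k = conj (P006.gs k r) := by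
  rw [← CRB.gs_neg, ← V1_gs_eq, V1.gs, ← rsum_conj, gsc]
  refine rsum_congr fun x => ?_
  rw [map_mul]
  congr 1
  rw [E, E, ← e_neg, ← TrC_neg]
  congr 2
  rw [mul_neg, map_neg, neg_div, neg_neg]

/-- the phase attached to `a` -/
noncomputable def gam (a : O) : ℂ := conj (ch a sq3) * conj (gt 1 a)

theorem norm_gam {a : O} (ha : Primary a) (sa : Squarefree a) : ‖gam a‖ = 1 := by
  rw [gam, norm_mul, Complex.norm_conj, Complex.norm_conj, norm_gt ha sa isCoprime_one_left, ch,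
    norm_sym (isCoprime_sq3 ha), one_mul]

theorem gs_one_eq_gt {a : O} (ha : Primary a) :
    P006.gs 1 a = (Real.sqrt (N a) : ℝ) * gt 1 a := by
  rw [gt, mul_div_cancel₀]
  have : (0 : ℝ) < N a := by exact_mod_cast N_pos ha.ne_zero
  exact_mod_cast (Real.sqrt_pos.2 this).ne'

/-- the complete sum of the pair `(a, b)` -/
theorem GS_pair {a b : O} (ha : Primary a) (hb : Primary b) (sa : Squarefree a)
    (sb : Squarefree b) (hab : IsCoprime a b) (h : O) :
    rsum (a * b) (fun x => (conj (ch a x) * ch b x) * E (sq3 * (a * b)) (x * h)) =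
      ((Real.sqrt (N a) * Real.sqrt (N b) : ℝ) : ℂ) * ((gam a * conj (gam b)) *
        (ch a h * conj (ch b h))) := by
  have na : NeZero a := ⟨ha.ne_zero⟩
  have nb : NeZero b := ⟨hb.ne_zero⟩
  have nab : NeZero (a * b) := ⟨mul_ne_zero ha.ne_zero hb.ne_zero⟩
  have hG : V1.Per (a * b) (fun y => (conj (ch a y) * ch b y) * E (sq3 * (a * b)) (y * h)) :=
    (((ch_per a).conj.mono (dvd_mul_right _ _)).mul ((ch_per b).mono (dvd_mul_left _ _))).mul
      (E_per_sq3 (NeZero.ne _) h)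
  rw [← rsum_comp_mul (isCoprime_sq3 (ha.mul hb)) hG]
  have e1 : ∀ x : O, conj (ch a (sq3 * x)) * ch b (sq3 * x) * E (sq3 * (a * b)) (sq3 * x * h) =
      (conj (ch a sq3) * ch b sq3) * ((conj (ch a x) * ch b x) * E (a * b) (x * h)) := by
    intro x
    rw [mul_assoc sq3 x h, E_mul_cancel sq3_ne_zero, ch_mul, ch_mul, map_mul]
    ring
  rw [rsum_congr e1, rsum_const_mul, rsum_mul_E ha.ne_zero hb.ne_zero hab (ch_per a).conj
    (ch_per b) h]
  have e2 : rsum a (fun x => conj (ch a (b * x)) * E a (x * h)) =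
      conj (ch a b) * gsc a h := by
    rw [gsc, ← rsum_const_mul]
    refine rsum_congr fun x => ?_
    rw [ch_mul, map_mul]; ring
  have e3 : rsum b (fun x => ch b (a * x) * E b (x * h)) = ch b a * V1.gs b h := by
    rw [V1.gs, ← rsum_const_mul]
    refine rsum_congr fun x => ?_
    rw [ch_mul]; ring
  rw [e2, e3, V1_gsc_eq, V1_gs_eq, CRB.gs_squarefree ha sa, CRB.gs_squarefree hb sb, gs_one_eq_gt ha,
    gs_one_eq_gt hb, gam, gam]
  have e4 : conj (ch a b) * ch b a = 1 := by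
    rw [ch, ch, recip ha hb, CRB.conj_mul_sym hab.symm]
  simp only [map_mul, Complex.conj_conj, Complex.conj_ofReal]
  rw [show toC (sym h a) = ch a h from rfl, show toC (sym h b) = ch b h from rfl]
  push_cast
  linear_combination ((Real.sqrt (N a) : ℂ) * (Real.sqrt (N b) : ℂ) * conj (ch a sq3) *
    ch b sq3 * conj (gt 1 a) * gt 1 b * ch a h * conj (ch b h)) * e4

theorem summable_pair {A : ℝ} (hA : 0 < A) {ψ : O → ℂ} (hψ : ∀ x, ‖ψ x‖ ≤ 1) :
    Summable fun x : O => ψ x * ((Real.exp (-(b0 * N x / A)) : ℝ) : ℂ) := by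
  have h := (PO.dec_summable_O (gau_dec hA)).norm
  refine Summable.of_norm_bounded h fun x => ?_
  rw [norm_mul, gau_toC]
  exact mul_le_of_le_one_left (norm_nonneg _) (hψ x)

/-- **The exact pair identity.** -/
theorem pair_identity {a b : O} (ha : Primary a) (hb : Primary b) (sa : Squarefree a)
    (sb : Squarefree b) (hab : IsCoprime a b) {A : ℝ} (hA : 0 < A) :
    HasSum (fun h : O => ((A / (Real.sqrt (N a) * Real.sqrt (N b)) : ℝ) : ℂ) *
        ((gam a * conj (gam b)) * ((ch a h * conj (ch b h)) *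
          ((Real.exp (-(b0 * A * N h / (N a * N b))) : ℝ) : ℂ))))
      (∑' x : O, (conj (ch a x) * ch b x) * ((Real.exp (-(b0 * N x / A)) : ℝ) : ℂ)) := by
  have na : NeZero a := ⟨ha.ne_zero⟩
  have nb : NeZero b := ⟨hb.ne_zero⟩
  have nab : NeZero (a * b) := ⟨mul_ne_zero ha.ne_zero hb.ne_zero⟩
  have hper : V1.Per (a * b) (fun y => conj (ch a y) * ch b y) :=
    ((ch_per a).conj.mono (dvd_mul_right _ _)).mul ((ch_per b).mono (dvd_mul_left _ _))
  have key := PO.poisson_per (gau_continuous A) (gau_dec hA) (FT_gau_dec hA)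
    (NeZero.ne (a * b)) (isResSys_reps (a * b)) (per_iff hper)
  simp only [gau_toC] at key
  convert key using 1
  funext h
  rw [GS_eq, GS_pair ha hb sa sb hab, FT_gau hA]
  have pa : (0 : ℝ) < N a := by exact_mod_cast N_pos ha.ne_zero
  have pb : (0 : ℝ) < N b := by exact_mod_cast N_pos hb.ne_zero
  have qa : 0 < Real.sqrt (N a) := Real.sqrt_pos.2 pa
  have qb : 0 < Real.sqrt (N b) := Real.sqrt_pos.2 pb
  have e1 : gau (1 / (3 * A)) (toC h / (toC PO.rt3 * toC (a * b))) =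
      ((Real.exp (-(b0 * A * N h / (N a * N b))) : ℝ) : ℂ) := by
    rw [gau, norm_div, norm_mul, div_pow, mul_pow, ← N_eq_sq_norm, ← N_eq_sq_norm,
      ← N_eq_sq_norm, PO.N_rt3, N_mul]
    push_cast
    congr 2
    field_simp
  have e2 : ((A / (Real.sqrt (N a) * Real.sqrt (N b)) : ℝ) : ℂ) =
      (2 / (Real.sqrt 3 * N (a * b)) : ℂ) * (((Real.sqrt (N a) * Real.sqrt (N b) : ℝ) : ℂ) *
        ((Real.sqrt 3 / 2 * A : ℝ) : ℂ)) := by
    have s3 : 0 < Real.sqrt 3 := by positivity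
    have ea : Real.sqrt (N a) ^ 2 = N a := Real.sq_sqrt pa.le
    have eb : Real.sqrt (N b) ^ 2 = N b := Real.sq_sqrt pb.le
    have : (A / (Real.sqrt (N a) * Real.sqrt (N b)) : ℝ) =
      (2 / (Real.sqrt 3 * N (a * b)) : ℝ) * ((Real.sqrt (N a) * Real.sqrt (N b) : ℝ) *
        (Real.sqrt 3 / 2 * A : ℝ)) := by
      rw [N_mul]
      push_cast
      rw [← ea, ← eb, Real.sqrt_sq qa.le, Real.sqrt_sq qb.le]
      field_simp
    exact_mod_cast this
  rw [e1, e2]
  ring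

end Vale.Agent.P006.PS
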